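import Mathlib
import Vale.Agent.Lib.P089.Defs
import Vale.Agent.Lib.P089.Interface

/-!
# P089, Part B-c: index graphs (interface between B-a/B-b and B-c)

An index graph is a finite graph with `d` partial involutions without fixed points
(index `i` joins `x` and `nb x i`), before the labels `j : Fin m` are put on its edges.
`PartBab` is what B-a and B-b have to provide, `partBc : PartBab → PartB`.
-/

namespace P089.BC

open scoped Classical

/-- finite graph with `d` partial involutions -/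
structure IG (d : ℕ) where
  V : Type
  fin : Fintype V
  nb : V → Fin d → Option V
  symm : ∀ x i y, nb x i = some y → nb y i = some x
  irr : ∀ x i, nb x i ≠ some x

attribute [instance] IG.fin

variable {d : ℕ}

/-- no nonempty reduced closed word of length `< g` -/
def IG.Girth (G : IG d) (g : ℕ) : Prop :=
  ∀ x w, Red w → w ≠ [] → walk G.nb x w = some x → g ≤ w.length

/-- number of darts inside `F` -/
noncomputable def IG.darts (G : IG d) (F : Finset G.V) : ℕ :=
  ((F ×ˢ (Finset.univ : Finset (Fin d))).filter fun p => ∃ y ∈ F, G.nb p.1 p.2 = some y).card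

/-- value of `f` at the `i`-neighbour (0 if there is none) -/
noncomputable def IG.nbv (G : IG d) (f : G.V → ℝ) (x : G.V) (i : Fin d) : ℝ :=
  match G.nb x i with
  | some y => f y
  | none => 0

/-- index level version of `Fam.Good` -/
structure IGood (G : ℕ → IG d) (L : ℕ → ℕ) (D : ℕ) (h cP ε : ℝ) (L0 K0 : ℕ) : Prop where
  mono : StrictMono L
  L0_le : L0 ≤ L 0
  nonempty : ∀ n, Nonempty (G n).V
  girth : ∀ n, (G n).Girth (100 * L n)
  card_le : ∀ n, Fintype.card (G n).V ≤ 2 * D ^ (L n)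
  conn : ∀ n (x y : (G n).V), ∃ w, walk (G n).nb x w = some y
  b2 : ∀ n (F : Finset (G n).V), (F.card : ℝ) ≤ 19 / 20 * Fintype.card (G n).V →
    ((G n).darts F : ℝ) ≤ (d - h) * F.card
  b3 : ∀ n, ((d : ℝ) - ε) * Fintype.card (G n).V ≤ (G n).darts Finset.univ
  poin : ∀ n (f : (G n).V → ℝ), ∑ x, f x = 0 →
    cP * ∑ x, f x ^ 2 ≤ ∑ x, (d * f x ^ 2 - ∑ i, f x * (G n).nbv f x i)
  ball : ∀ n (x : (G n).V),
    8 * {y | ∃ w : List (Fin d), w.length ≤ 3 * L n ∧ walk (G n).nb x w = some y}.ncard ≤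
      Fintype.card (G n).V
  K0_le : ∀ n, K0 ≤ Fintype.card (G n).V
  growth : ∀ n, 2 * Fintype.card (G n).V ≤ Fintype.card (G (n + 1)).V

/-- what B-a and B-b have to provide -/
def PartBab : Prop :=
  ∃ (d : ℕ) (h cP : ℝ), 3 ≤ d ∧ 0 < h ∧ 0 < cP ∧ ∀ ε : ℝ, 0 < ε → ∃ D : ℕ, 1 ≤ D ∧
    ∀ L0 K0 : ℕ, ∃ (G : ℕ → IG d) (L : ℕ → ℕ), IGood G L D h cP ε L0 K0

/-! ### labels -/

/-- the edge of the dart `(x, i)` -/
noncomputable def IG.ed (G : IG d) (x : G.V) (i : Fin d) : Sym2 G.V × Fin d :=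
  (s(x, (G.nb x i).getD x), i)

/-- vertex after the first `t` letters -/
noncomputable def IG.vtx (G : IG d) (x : G.V) (w : List (Fin d)) (t : ℕ) : G.V :=
  (walk G.nb x (w.take t)).getD x

/-- the `t`-th edge of the path -/
noncomputable def IG.pe (G : IG d) (x : G.V) (w : List (Fin d)) (t : ℕ) (ht : t < w.length) :
    Sym2 G.V × Fin d := G.ed (G.vtx x w t) (w[t])

end P089.BC
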