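import Mathlib
import Vale.Agent.Lib.P089.BC.BDefs

/-!
# P089, Part B-c: labellings with separation, statements of the two halves

`PartLab` (helper35): separating labels exist.  `PartFam` (helper3): a separating labelling of a
good sequence of index graphs gives a family: positions `Σ n, (G n).V`, colours = the pairs
`(i, j)` which occur, `nb (n, x) (i, j) = nb x i` if the label of the edge is `j`.
-/

namespace P089.BC

open scoped Classical

/-- labels on the edges with the separation property -/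
structure Lab {d : ℕ} (G : ℕ → IG d) (L : ℕ → ℕ) (m : ℕ) where
  lab : ∀ n, Sym2 (G n).V × Fin d → Fin m
  sc1 : ∀ n (x x' : (G n).V) (w : List (Fin d)), x ≠ x' → Red w → w.length = L n →
    (walk (G n).nb x w).isSome → (walk (G n).nb x' w).isSome →
    ∃ (t : ℕ) (ht : t < w.length),
      lab n ((G n).pe x w t ht) ≠ lab n ((G n).pe x' w t ht)
  sc2 : ∀ k n, k < n → ∀ (x : (G k).V) (x' : (G n).V) (w : List (Fin d)), Red w →
    w.length = L k → (walk (G k).nb x w).isSome → (walk (G n).nb x' w).isSome →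
    ∃ (t : ℕ) (ht : t < w.length),
      lab k ((G k).pe x w t ht) ≠ lab n ((G n).pe x' w t ht)

/-- separating labels exist -/
def PartLab : Prop :=
  ∀ d D : ℕ, 1 ≤ d → 1 ≤ D → ∃ m L1 : ℕ, ∀ (G : ℕ → IG d) (L : ℕ → ℕ), StrictMono L →
    L1 ≤ L 0 → (∀ n, (G n).Girth (100 * L n)) →
    (∀ n, Fintype.card (G n).V ≤ 2 * D ^ (L n)) → Nonempty (Lab G L m)

/-- from labelled graphs to a family -/
def PartFam : Prop :=
  ∀ (d m D : ℕ) (h cP ε : ℝ) (L0 K0 : ℕ) (G : ℕ → IG d) (L : ℕ → ℕ), 1 ≤ L 0 →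
    IGood G L D h cP ε L0 K0 → Lab G L m →
    ∃ (S : Type) (_ : Fintype S) (Fm : Fam S d), Fm.Good h cP ε L0 K0

theorem partBc (h1 : PartLab) (h2 : PartFam) (h3 : PartBab) : PartB := by
  obtain ⟨d, h, cP, hd, hh, hcP, H⟩ := h3
  refine ⟨d, h, cP, hd, hh, hcP, fun ε hε L0 K0 => ?_⟩
  obtain ⟨D, hD, H⟩ := H ε hε
  obtain ⟨m, L1, hL⟩ := h1 d D (by omega) hD
  obtain ⟨G, L, hG⟩ := H (max L0 (max L1 1)) K0
  have hL0 : max L0 (max L1 1) ≤ L 0 := hG.L0_le
  obtain ⟨lab⟩ := hL G L hG.mono (le_trans (by simp) hL0) hG.girth hG.card_le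
  obtain ⟨S, hS, Fm, hF⟩ := h2 d m D h cP ε (max L0 (max L1 1)) K0 G L
    (le_trans (by simp) hL0) hG lab
  exact ⟨S, hS, Fm, { hF with L0_le := fun x => le_trans (le_max_left _ _) (hF.L0_le x) }⟩

end P089.BC
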