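import Vale.Agent.Lib.P089.BC.Pairs
import Vale.Agent.Lib.P089.BC.LabDefs

/-!
# P089, Part B-c: from separating labels to the family
-/

namespace P089.BC

open scoped Classical

variable {d m : ℕ} (G : ℕ → IG d) (lab : ∀ n, Sym2 (G n).V × Fin d → Fin m)

/-- the positions -/
abbrev Pos : Type := Σ n, (G n).V

/-- the labelled neighbour -/
noncomputable def lnb (x : Pos G) (c : Fin d × Fin m) : Option (Pos G) :=
  if lab x.1 ((G x.1).ed x.2 c.1) = c.2 then ((G x.1).nb x.2 c.1).map (Sigma.mk x.1) else none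

/-- the colours that occur -/
abbrev Col : Type := {c : Fin d × Fin m // ∃ x, (lnb G lab x c).isSome}

/-- the labelled neighbour, for colours that occur -/
noncomputable def cnb (x : Pos G) (s : Col G lab) : Option (Pos G) := lnb G lab x s.1

/-- the index word of a coloured word -/
def iw (w : List (Col G lab)) : List (Fin d) := w.map fun s => s.1.1

theorem iw_length (w : List (Col G lab)) : (iw G lab w).length = w.length := by
  unfold iw
  rw [List.length_map]

theorem lnb_eq_some {n : ℕ} {x : (G n).V} {c : Fin d × Fin m} {p : Pos G} :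
    lnb G lab ⟨n, x⟩ c = some p ↔
      ∃ y, (G n).nb x c.1 = some y ∧ p = ⟨n, y⟩ ∧ lab n ((G n).ed x c.1) = c.2 := by
  unfold lnb
  simp only
  split_ifs with h
  · rw [Option.map_eq_some_iff]
    constructor
    · rintro ⟨y, hy, rfl⟩
      exact ⟨y, hy, rfl, h⟩
    · rintro ⟨y, hy, rfl, -⟩
      exact ⟨y, hy, rfl⟩
  · constructor
    · intro h'
      cases h'
    · rintro ⟨y, -, -, h'⟩
      exact absurd h' h

theorem ed_symm {n : ℕ} {x y : (G n).V} {i : Fin d} (h : (G n).nb x i = some y) :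
    (G n).ed y i = (G n).ed x i := by
  unfold IG.ed
  rw [h, (G n).symm _ _ _ h]
  simp only [Option.getD_some]
  rw [Sym2.eq_swap]

theorem lnb_symm {x y : Pos G} {c : Fin d × Fin m} (h : lnb G lab x c = some y) :
    lnb G lab y c = some x := by
  obtain ⟨n, x⟩ := x
  obtain ⟨z, hz, rfl, hl⟩ := (lnb_eq_some G lab).1 h
  refine (lnb_eq_some G lab).2 ⟨x, (G n).symm _ _ _ hz, rfl, ?_⟩
  rw [ed_symm G hz, hl]

/-- coloured walks are index walks -/
theorem walk_down (w : List (Col G lab)) : ∀ {n : ℕ} {x : (G n).V} {p : Pos G},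
    walk (cnb G lab) ⟨n, x⟩ w = some p →
      ∃ y, p = ⟨n, y⟩ ∧ walk (G n).nb x (iw G lab w) = some y := by
  induction w with
  | nil =>
    intro n x p h
    simp only [walk, Option.some.injEq] at h
    exact ⟨x, h.symm, rfl⟩
  | cons s w ih =>
    intro n x p h
    simp only [walk] at h
    obtain ⟨q, hq, hw⟩ := Option.bind_eq_some_iff.1 h
    obtain ⟨z, hz, rfl, -⟩ := (lnb_eq_some G lab).1 hq
    obtain ⟨y, hy, hy2⟩ := ih hw
    refine ⟨y, hy, ?_⟩
    change ((G n).nb x s.1.1).bind _ = _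
    rw [hz]
    exact hy2

/-- index walks lift -/
theorem walk_lift (u : List (Fin d)) : ∀ {n : ℕ} {x y : (G n).V},
    walk (G n).nb x u = some y →
      ∃ w : List (Col G lab), w.length = u.length ∧
        walk (cnb G lab) ⟨n, x⟩ w = some ⟨n, y⟩ := by
  induction u with
  | nil =>
    intro n x y h
    simp only [walk, Option.some.injEq] at h
    rw [h]
    exact ⟨[], rfl, rfl⟩
  | cons i u ih =>
    intro n x y h
    simp only [walk] at h
    obtain ⟨z, hz, hw⟩ := Option.bind_eq_some_iff.1 h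
    obtain ⟨w, hwl, hw2⟩ := ih hw
    have h1 : lnb G lab ⟨n, x⟩ (i, lab n ((G n).ed x i)) = some ⟨n, z⟩ :=
      (lnb_eq_some G lab).2 ⟨z, hz, rfl, rfl⟩
    refine ⟨⟨(i, lab n ((G n).ed x i)), ⟨n, x⟩, by rw [h1]; rfl⟩ :: w, by simp [hwl], ?_⟩
    simp only [walk]
    change (lnb G lab ⟨n, x⟩ (i, lab n ((G n).ed x i))).bind _ = _
    rw [h1]
    exact hw2

/-- the labels along a coloured walk -/
theorem walk_labels (w : List (Col G lab)) : ∀ {n : ℕ} {x : (G n).V},
    (walk (cnb G lab) ⟨n, x⟩ w).isSome → ∀ (t : ℕ) (ht : t < (iw G lab w).length)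
      (ht' : t < w.length), lab n ((G n).pe x (iw G lab w) t ht) = (w[t]).1.2 := by
  induction w with
  | nil =>
    intro n x _ t _ ht'
    exact absurd ht' (Nat.not_lt_zero t)
  | cons s w ih =>
    intro n x h t ht ht'
    obtain ⟨p, hp⟩ := Option.isSome_iff_exists.1 h
    simp only [walk] at hp
    obtain ⟨q, hq, hw⟩ := Option.bind_eq_some_iff.1 hp
    obtain ⟨z, hz, rfl, hl⟩ := (lnb_eq_some G lab).1 hq
    have hs : (walk (G n).nb x (iw G lab (s :: w))).isSome := by
      obtain ⟨y, -, hy⟩ := walk_down G lab (s :: w) hp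
      rw [hy]
      rfl
    have hs' : (walk (G n).nb z (iw G lab w)).isSome := by
      obtain ⟨y, -, hy⟩ := walk_down G lab w hw
      rw [hy]
      rfl
    rcases t with _ | t
    · exact hl
    · have ht1 : t < (iw G lab w).length := by
        simpa [iw] using ht
      have ht2 : t < w.length := by simpa using ht'
      have hv : ∀ k, (G n).vtx x (iw G lab (s :: w)) (k + 1) = (G n).vtx z (iw G lab w) k := by
        intro k
        have h1 := (G n).vtx_spec hs (k + 1)
        have h2 := (G n).vtx_spec hs' k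
        have h3 : walk (G n).nb x ((iw G lab (s :: w)).take (k + 1)) =
            walk (G n).nb z ((iw G lab w).take k) := by
          change ((G n).nb x s.1.1).bind _ = _
          rw [hz]
          rfl
        rw [h3, h2] at h1
        exact (Option.some.inj h1).symm
      have h4 : (G n).pe x (iw G lab (s :: w)) (t + 1) ht = (G n).pe z (iw G lab w) t ht1 := by
        rw [(G n).pe_eq hs ht, (G n).pe_eq hs' ht1, hv, hv]
        rfl
      rw [h4]
      exact ih (by rw [hw]; rfl) t ht1 ht2

/-- reduced coloured words that are readable have reduced index words -/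
theorem red_iw (w : List (Col G lab)) : ∀ {n : ℕ} {x : (G n).V}, Red w →
    (walk (cnb G lab) ⟨n, x⟩ w).isSome → Red (iw G lab w) := by
  induction w with
  | nil =>
    intro n x _ _
    exact List.isChain_nil
  | cons s w ih =>
    intro n x hw h
    obtain ⟨p, hp⟩ := Option.isSome_iff_exists.1 h
    simp only [walk] at hp
    obtain ⟨q, hq, hq2⟩ := Option.bind_eq_some_iff.1 hp
    obtain ⟨z, hz, rfl, hl⟩ := (lnb_eq_some G lab).1 hq
    rcases w with _ | ⟨s', w⟩
    · exact List.isChain_singleton _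
    · have h1 : s ≠ s' ∧ Red (s' :: w) := List.isChain_cons_cons.1 hw
      have h2 := ih h1.2 (by rw [hq2]; rfl)
      refine List.isChain_cons_cons.2 ⟨?_, h2⟩
      intro hi
      simp only [walk] at hq2
      obtain ⟨q', hq', -⟩ := Option.bind_eq_some_iff.1 hq2
      obtain ⟨z', hz', -, hl'⟩ := (lnb_eq_some G lab).1 hq'
      apply h1.1
      apply Subtype.ext
      refine Prod.ext hi ?_
      rw [← hl, ← hl']
      simp only at hi
      rw [← hi, ed_symm G hz]

/-- sums over the colours -/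
theorem sum_cols {M : Type*} [AddCommMonoid M] (φ : Option (Pos G) → M) (h0 : φ none = 0)
    {n : ℕ} (x : (G n).V) :
    ∑ s : Col G lab, φ (cnb G lab ⟨n, x⟩ s) = ∑ i, φ (((G n).nb x i).map (Sigma.mk n)) := by
  rw [← Finset.sum_fiberwise Finset.univ (fun s : Col G lab => s.1.1)]
  refine Finset.sum_congr rfl fun i _ => ?_
  rcases hi : (G n).nb x i with _ | y
  · rw [Option.map_none, h0]
    refine Finset.sum_eq_zero fun s hs => ?_
    rw [Finset.mem_filter] at hs
    have h1 : cnb G lab ⟨n, x⟩ s = none := by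
      rcases h2 : cnb G lab ⟨n, x⟩ s with _ | p
      · rfl
      · obtain ⟨z, hz, -, -⟩ := (lnb_eq_some G lab).1 h2
        rw [hs.2, hi] at hz
        cases hz
    rw [h1, h0]
  · rw [Option.map_some]
    have h1 : lnb G lab ⟨n, x⟩ (i, lab n ((G n).ed x i)) = some ⟨n, y⟩ :=
      (lnb_eq_some G lab).2 ⟨y, hi, rfl, rfl⟩
    obtain ⟨c0, hc0⟩ : ∃ c0 : Col G lab, c0.1 = (i, lab n ((G n).ed x i)) :=
      ⟨⟨_, ⟨n, x⟩, by rw [h1]; rfl⟩, rfl⟩
    have h2 : cnb G lab ⟨n, x⟩ c0 = some ⟨n, y⟩ := by
      unfold cnb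
      rw [hc0, h1]
    have hc0i : c0.1.1 = i := by rw [hc0]
    rw [← h2]
    refine Finset.sum_eq_single (f := fun s : Col G lab => φ (cnb G lab ⟨n, x⟩ s)) c0 ?_ ?_
    · intro s hs hne
      rw [Finset.mem_filter] at hs
      have h3 : cnb G lab ⟨n, x⟩ s = none := by
        rcases h4 : cnb G lab ⟨n, x⟩ s with _ | p
        · rfl
        · obtain ⟨z, hz, -, hl⟩ := (lnb_eq_some G lab).1 h4
          exfalso
          apply hne
          apply Subtype.ext
          rw [hc0]
          refine Prod.ext hs.2 ?_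
          rw [← hl, hs.2]
      change φ (cnb G lab ⟨n, x⟩ s) = 0
      rw [h3, h0]
    · intro h3
      exact (h3 (Finset.mem_filter.2 ⟨Finset.mem_univ c0, hc0i⟩)).elim

/-- take a prefix of a readable word -/
theorem readable_take {V S : Type} {nb : V → S → Option V} {x : V} {w : List S} (k : ℕ)
    (h : (walk nb x w).isSome) : (walk nb x (w.take k)).isSome :=
  walk_isSome_left (v := w.drop k) (by rwa [List.take_append_drop])

/-- separation -/
theorem lab_sc {L : ℕ → ℕ} (hmono : StrictMono L) (lb : Lab G L m) (x y : Pos G)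
    (w : List (Col G lb.lab)) (hne : x ≠ y) (hw : Red w) (hx : (walk (cnb G lb.lab) x w).isSome)
    (hy : (walk (cnb G lb.lab) y w).isSome) : w.length < L x.1 ∧ w.length < L y.1 := by
  have down : ∀ (n : ℕ) (z : (G n).V) (u : List (Col G lb.lab)),
      (walk (cnb G lb.lab) ⟨n, z⟩ u).isSome → (walk (G n).nb z (iw G lb.lab u)).isSome := by
    intro n z u hu
    obtain ⟨p, hp⟩ := Option.isSome_iff_exists.1 hu
    obtain ⟨v, -, hv⟩ := walk_down G lb.lab u hp
    rw [hv]
    rfl
  have main : ∀ (k n : ℕ) (a : (G k).V) (b : (G n).V) (u : List (Col G lb.lab)), k < n → Red u →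
      (walk (cnb G lb.lab) ⟨k, a⟩ u).isSome → (walk (cnb G lb.lab) ⟨n, b⟩ u).isSome →
      u.length < L k := by
    intro k n a b u hkn hu ha hb
    by_contra hlen
    have hlen' : L k ≤ u.length := not_lt.1 hlen
    have ha' := readable_take (L k) ha
    have hb' := readable_take (L k) hb
    have hu' : Red (u.take (L k)) := List.IsChain.take hu _
    obtain ⟨t, ht, hne'⟩ := lb.sc2 k n hkn a b (iw G lb.lab (u.take (L k)))
      (red_iw G lb.lab _ hu' ha') (by rw [iw_length, List.length_take, min_eq_left hlen'])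
      (down _ _ _ ha') (down _ _ _ hb')
    have ht' : t < (u.take (L k)).length := by rwa [iw_length] at ht
    apply hne'
    rw [walk_labels G lb.lab _ ha' t ht ht', walk_labels G lb.lab _ hb' t ht ht']
  obtain ⟨n, a⟩ := x
  obtain ⟨k, b⟩ := y
  simp only
  rcases lt_trichotomy n k with hnk | rfl | hnk
  · have h1 := main n k a b w hnk hw hx hy
    exact ⟨h1, h1.trans (hmono hnk)⟩
  · have hab : a ≠ b := fun h => hne (by rw [h])
    have h1 : w.length < L n := by
      by_contra hlen
      have hlen' : L n ≤ w.length := not_lt.1 hlen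
      have ha' := readable_take (L n) hx
      have hb' := readable_take (L n) hy
      have hu' : Red (w.take (L n)) := List.IsChain.take hw _
      obtain ⟨t, ht, hne'⟩ := lb.sc1 n a b (iw G lb.lab (w.take (L n))) hab
        (red_iw G lb.lab _ hu' ha') (by rw [iw_length, List.length_take, min_eq_left hlen'])
        (down _ _ _ ha') (down _ _ _ hb')
      have ht' : t < (w.take (L n)).length := by rwa [iw_length] at ht
      apply hne'
      rw [walk_labels G lb.lab _ ha' t ht ht', walk_labels G lb.lab _ hb' t ht ht']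
    exact ⟨h1, h1⟩
  · have h1 := main k n b a w hnk hw hy hx
    exact ⟨h1.trans (hmono hnk), h1⟩

/-- the position graph -/
noncomputable def pgOf {L : ℕ → ℕ} (hmono : StrictMono L) (hL : 1 ≤ L 0)
    (hg : ∀ n, (G n).Girth (100 * L n)) (lb : Lab G L m) : PG (Col G lb.lab) where
  P := Pos G
  nb := cnb G lb.lab
  L := fun x => L x.1
  symm := fun x s y h => lnb_symm G lb.lab h
  irr := by
    rintro ⟨n, x⟩ s h
    obtain ⟨z, hz, h2, -⟩ := (lnb_eq_some G lb.lab).1 h
    have h3 : x = z := by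
      simpa using h2
    rw [← h3] at hz
    exact (G n).irr _ _ hz
  L_nb := by
    rintro ⟨n, x⟩ s y h
    obtain ⟨z, -, rfl, -⟩ := (lnb_eq_some G lb.lab).1 h
    rfl
  L_pos := fun x => hL.trans (hmono.monotone (Nat.zero_le _))
  girth := by
    rintro ⟨n, x⟩ w hw hne h
    obtain ⟨y, hy, hy2⟩ := walk_down G lb.lab w h
    have h3 : x = y := by simpa using hy
    rw [← h3] at hy2
    have h4 := hg n x (iw G lb.lab w) (red_iw G lb.lab w hw (by rw [h]; rfl))
      (fun h5 => hne (by
        unfold iw at h5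
        exact List.map_eq_nil_iff.1 h5)) hy2
    rwa [iw_length] at h4
  sc := fun x y w hne hw hx hy => lab_sc G hmono lb x y w hne hw hx hy
  col := fun s => s.2

/-- the pieces -/
noncomputable def piece (n : ℕ) : Finset (Pos G) :=
  Finset.univ.map ⟨Sigma.mk n, sigma_mk_injective⟩

theorem mem_piece {n : ℕ} {x : Pos G} : x ∈ piece G n ↔ x.1 = n := by
  unfold piece
  rw [Finset.mem_map]
  constructor
  · rintro ⟨y, -, rfl⟩
    rfl
  · rintro rfl
    exact ⟨x.2, Finset.mem_univ _, rfl⟩

theorem card_piece (n : ℕ) : (piece G n).card = Fintype.card (G n).V := by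
  unfold piece
  rw [Finset.card_map, Finset.card_univ]

/-- the family -/
noncomputable def famOf {L : ℕ → ℕ} (hmono : StrictMono L) (hL : 1 ≤ L 0)
    (hg : ∀ n, (G n).Girth (100 * L n)) (hne : ∀ n, Nonempty (G n).V)
    (hc : ∀ n (x y : (G n).V), ∃ w, walk (G n).nb x w = some y) (lb : Lab G L m) :
    Fam (Col G lb.lab) d where
  toPG := pgOf G hmono hL hg lb
  idx := fun x : Pos G => x.1
  X := piece G
  memX := fun n x => mem_piece G
  conn := by
    rintro ⟨n, x⟩ ⟨k, y⟩
    constructor
    · intro h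
      simp only at h
      subst h
      obtain ⟨u, hu⟩ := hc n x y
      obtain ⟨w, -, hw⟩ := walk_lift G lb.lab u hu
      exact ⟨w, hw⟩
    · rintro ⟨w, hw⟩
      obtain ⟨z, hz, -⟩ := walk_down G lb.lab w hw
      rw [hz]
  nonempty := fun n => by
    obtain ⟨x⟩ := hne n
    exact ⟨⟨n, x⟩, (mem_piece G).2 rfl⟩
  deg := by
    rintro ⟨n, x⟩
    have h1 : ((pgOf G hmono hL hg lb).ty ⟨n, x⟩).card ≤ (Finset.univ : Finset (Fin d)).card := by
      refine Finset.card_le_card_of_injOn (fun s => s.1.1) (fun _ _ => Finset.mem_coe.2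
        (Finset.mem_univ _)) ?_
      intro s hs s' hs' hss
      simp only [PG.ty, Finset.coe_filter, Set.mem_ofPred_eq, Finset.mem_univ, true_and] at hs hs'
      obtain ⟨p, hp⟩ := Option.isSome_iff_exists.1 hs
      obtain ⟨p', hp'⟩ := Option.isSome_iff_exists.1 hs'
      obtain ⟨z, -, -, hl⟩ := (lnb_eq_some G lb.lab).1 hp
      obtain ⟨z', -, -, hl'⟩ := (lnb_eq_some G lb.lab).1 hp'
      apply Subtype.ext
      refine Prod.ext hss ?_
      simp only at hss
      rw [← hl, ← hl', hss]
    rwa [Finset.card_univ, Fintype.card_fin] at h1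

section Good

variable {L : ℕ → ℕ} (hmono : StrictMono L) (hL : 1 ≤ L 0)
    (hg : ∀ n, (G n).Girth (100 * L n)) (hne : ∀ n, Nonempty (G n).V)
    (hc : ∀ n (x y : (G n).V), ∃ w, walk (G n).nb x w = some y) (lb : Lab G L m)

/-- sums over a piece -/
theorem sum_piece {M : Type*} [AddCommMonoid M] (n : ℕ) (φ : Pos G → M) :
    ∑ x ∈ piece G n, φ x = ∑ v : (G n).V, φ ⟨n, v⟩ := by
  unfold piece
  rw [Finset.sum_map]
  rfl

/-- indicator of having the value in `F` -/
noncomputable def ind {P : Type} (F : Finset P) (o : Option P) : ℕ :=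
  if ∃ y ∈ F, o = some y then 1 else 0

theorem ind_none {P : Type} (F : Finset P) : ind F none = 0 := by
  unfold ind
  rw [if_neg]
  rintro ⟨y, -, hy⟩
  cases hy

theorem ind_some {P : Type} (F : Finset P) (y : P) : ind F (some y) = if y ∈ F then 1 else 0 := by
  unfold ind
  congr 1
  simp only [Option.some.injEq, exists_eq_right']

theorem pg_darts {S : Type} [Fintype S] (Pg : PG S) (F : Finset Pg.P) :
    Pg.darts F = ∑ x ∈ F, ∑ s, ind F (Pg.nb x s) := by
  unfold PG.darts
  rw [Finset.card_filter, Finset.sum_product]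
  refine Finset.sum_congr rfl fun x _ => Finset.sum_congr rfl fun s _ => ?_
  unfold ind
  congr 1

theorem ig_darts (H : IG d) (F : Finset H.V) :
    H.darts F = ∑ x ∈ F, ∑ s, ind F (H.nb x s) := by
  unfold IG.darts
  rw [Finset.card_filter, Finset.sum_product]
  refine Finset.sum_congr rfl fun x _ => Finset.sum_congr rfl fun s _ => ?_
  unfold ind
  congr 1

/-- the trace of a set of positions on the `n`-th index graph -/
noncomputable def tr (n : ℕ) (F : Finset (Pos G)) : Finset (G n).V :=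
  Finset.univ.filter fun v => (⟨n, v⟩ : Pos G) ∈ F

theorem mem_tr {n : ℕ} {F : Finset (Pos G)} {v : (G n).V} :
    v ∈ tr G n F ↔ (⟨n, v⟩ : Pos G) ∈ F := by
  unfold tr
  rw [Finset.mem_filter]
  exact ⟨fun h => h.2, fun h => ⟨Finset.mem_univ _, h⟩⟩

theorem map_tr {n : ℕ} {F : Finset (Pos G)} (hF : F ⊆ piece G n) :
    F = (tr G n F).map ⟨Sigma.mk n, sigma_mk_injective⟩ := by
  ext x
  rw [Finset.mem_map]
  constructor
  · intro hx
    have h1 := (mem_piece G).1 (hF hx)
    obtain ⟨k, y⟩ := x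
    simp only at h1
    subst h1
    exact ⟨y, (mem_tr G).2 hx, rfl⟩
  · rintro ⟨y, hy, rfl⟩
    exact (mem_tr G).1 hy

theorem card_tr {n : ℕ} {F : Finset (Pos G)} (hF : F ⊆ piece G n) :
    F.card = (tr G n F).card := by
  conv_lhs => rw [map_tr G hF]
  rw [Finset.card_map]

theorem ind_tr {n : ℕ} (F : Finset (Pos G)) (o : Option (G n).V) :
    ind F (o.map (Sigma.mk n)) = ind (tr G n F) o := by
  rcases o with _ | y
  · rw [Option.map_none, ind_none, ind_none]
  · rw [Option.map_some, ind_some, ind_some]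
    congr 1
    exact propext (mem_tr G).symm

theorem darts_cnb {n : ℕ} {F : Finset (Pos G)} (hF : F ⊆ piece G n) :
    ∑ x ∈ F, ∑ s, ind F (cnb G lb.lab x s) = (G n).darts (tr G n F) := by
  rw [ig_darts]
  have h1 : ∑ x ∈ F, ∑ s, ind F (cnb G lb.lab x s) =
      ∑ x ∈ (tr G n F).map ⟨Sigma.mk n, sigma_mk_injective⟩, ∑ s, ind F (cnb G lb.lab x s) := by
    rw [← map_tr G hF]
  rw [h1, Finset.sum_map]
  refine Finset.sum_congr rfl fun v _ => ?_
  have h2 := sum_cols G lb.lab (ind F) (ind_none F) v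
  refine Eq.trans h2 ?_
  exact Finset.sum_congr rfl fun i _ => ind_tr G F _

theorem famOf_darts {n : ℕ} {F : Finset (Pos G)} (hF : F ⊆ piece G n) :
    (famOf G hmono hL hg hne hc lb).darts F = (G n).darts (tr G n F) := by
  have h1 := pg_darts (famOf G hmono hL hg hne hc lb).toPG F
  exact h1.trans (darts_cnb G lb hF)

theorem tr_piece (n : ℕ) : tr G n (piece G n) = Finset.univ := by
  ext v
  rw [mem_tr, mem_piece]
  simp

/-- the value at the neighbour -/
def val {P K : Type} [Zero K] (f : P → K) : Option P → K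
  | some y => f y
  | none => 0

theorem pg_nbv {S : Type} (Pg : PG S) (f : Pg.P → ℝ) (x : Pg.P) (s : S) :
    Pg.nbv f x s = val f (Pg.nb x s) := by
  unfold PG.nbv
  rcases Pg.nb x s with _ | y
  · rfl
  · rfl

theorem nbv_sum (f : Pos G → ℝ) {n : ℕ} (x : (G n).V) :
    ∑ s, f ⟨n, x⟩ * val f (cnb G lb.lab ⟨n, x⟩ s) =
      ∑ i, f ⟨n, x⟩ * (G n).nbv (fun v => f ⟨n, v⟩) x i := by
  rw [← Finset.mul_sum, ← Finset.mul_sum, sum_cols G lb.lab (val f) rfl x]
  congr 1
  refine Finset.sum_congr rfl fun i _ => ?_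
  unfold IG.nbv
  rcases (G n).nb x i with _ | y
  · rfl
  · rfl

theorem ball_eq {n : ℕ} (x : (G n).V) :
    {y : Pos G | ∃ w : List (Col G lb.lab), w.length ≤ 3 * L n ∧
      walk (cnb G lb.lab) ⟨n, x⟩ w = some y} =
    Sigma.mk n '' {y | ∃ w : List (Fin d), w.length ≤ 3 * L n ∧
      walk (G n).nb x w = some y} := by
  ext y
  constructor
  · rintro ⟨w, hw, h⟩
    obtain ⟨z, rfl, hz⟩ := walk_down G lb.lab w h
    exact ⟨z, ⟨iw G lb.lab w, by rwa [iw_length], hz⟩, rfl⟩
  · rintro ⟨z, ⟨u, hu, hz⟩, rfl⟩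
    obtain ⟨w, hw, h⟩ := walk_lift G lb.lab u hz
    exact ⟨w, by rwa [hw], h⟩

end Good

/-- Part B-c, second half -/
theorem partFam : PartFam := by
  intro d m D h cP ε L0 K0 G L hL hG lb
  refine ⟨Col G lb.lab, inferInstance, famOf G hG.mono hL hG.girth hG.nonempty hG.conn lb,
    { b2 := ?_, b3 := ?_, poin := ?_, ball := ?_, L0_le := ?_, K0_le := ?_, growth := ?_,
      L_tend := ?_ }⟩
  · intro n F hF hFc
    have h1 := famOf_darts G hG.mono hL hG.girth hG.nonempty hG.conn lb (n := n) (F := F) hF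
    have h2 := card_tr G (n := n) (F := F) hF
    have h3 : (piece G n).card = Fintype.card (G n).V := card_piece G n
    have h4 := hG.b2 n (tr G n F) (by
      rw [← h2, ← h3]
      exact hFc)
    rw [← h2, ← h1] at h4
    exact h4
  · intro n
    have h1 := famOf_darts G hG.mono hL hG.girth hG.nonempty hG.conn lb (n := n)
      (F := piece G n) subset_rfl
    have h3 : (piece G n).card = Fintype.card (G n).V := card_piece G n
    have h4 := hG.b3 n
    rw [← tr_piece G n, ← h1, ← h3] at h4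
    exact h4
  · intro n f hf
    have h1 : ∀ φ : Pos G → ℝ, ∑ x ∈ piece G n, φ x = ∑ v : (G n).V, φ ⟨n, v⟩ :=
      sum_piece G n
    have h2 : ∑ v : (G n).V, f ⟨n, v⟩ = 0 := (h1 f).symm.trans hf
    have h3 := hG.poin n (fun v => f ⟨n, v⟩) h2
    have h4 : ∑ x ∈ piece G n, f x ^ 2 = ∑ v : (G n).V, f ⟨n, v⟩ ^ 2 := h1 fun x => f x ^ 2
    have h5 : ∑ x ∈ piece G n, ((d : ℝ) * f x ^ 2 - ∑ s, f x * val f (cnb G lb.lab x s)) =
        ∑ v : (G n).V, ((d : ℝ) * f ⟨n, v⟩ ^ 2 -
          ∑ i, f ⟨n, v⟩ * (G n).nbv (fun v => f ⟨n, v⟩) v i) := by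
      refine (h1 fun x => (d : ℝ) * f x ^ 2 - ∑ s, f x * val f (cnb G lb.lab x s)).trans ?_
      refine Finset.sum_congr rfl fun v _ => ?_
      exact congrArg (fun r : ℝ => (d : ℝ) * f ⟨n, v⟩ ^ 2 - r) (nbv_sum G lb f v)
    rw [← h4, ← h5] at h3
    refine h3.trans (le_of_eq ?_)
    refine Finset.sum_congr rfl fun x _ => ?_
    congr 1
    refine Finset.sum_congr rfl fun s _ => ?_
    congr 1
    exact (pg_nbv (famOf G hG.mono hL hG.girth hG.nonempty hG.conn lb).toPG f x s).symm
  · rintro n ⟨k, x⟩ hx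
    have hk : k = n := (mem_piece G).1 hx
    subst hk
    have h1 := hG.ball k x
    have h2 := Set.ncard_image_of_injective
      {y | ∃ w : List (Fin d), w.length ≤ 3 * L k ∧ walk (G k).nb x w = some y}
      (sigma_mk_injective (i := k) (β := fun n => (G n).V))
    rw [← ball_eq G lb x] at h2
    have h3 : (piece G k).card = Fintype.card (G k).V := card_piece G k
    rw [← h2, ← h3] at h1
    exact h1
  · rintro ⟨n, x⟩
    exact hG.L0_le.trans (hG.mono.monotone (Nat.zero_le n))
  · intro n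
    have h3 : (piece G n).card = Fintype.card (G n).V := card_piece G n
    exact (hG.K0_le n).trans (le_of_eq h3.symm)
  · intro n
    have h3 : (piece G n).card = Fintype.card (G n).V := card_piece G n
    have h4 : (piece G (n + 1)).card = Fintype.card (G (n + 1)).V := card_piece G (n + 1)
    have h5 := hG.growth n
    rw [← h3, ← h4] at h5
    exact h5
  · intro K
    refine ⟨K, ?_⟩
    rintro ⟨n, x⟩ hn
    exact le_trans hn (hG.mono.id_le n)

end P089.BC
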