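import Mathlib
import Vale.Agent.Lib.P089.BC.BDefs

/-!
# P089, Part B-c: paths and pairs of paths
-/

namespace P089.BC

open scoped Classical

theorem walk_append {V S : Type} (nb : V → S → Option V) (x : V) (u v : List S) :
    walk nb x (u ++ v) = (walk nb x u).bind fun y => walk nb y v := by
  induction u generalizing x with
  | nil => simp [walk]
  | cons s u ih =>
    simp only [List.cons_append, walk]
    cases h : nb x s with
    | none => simp
    | some y => simp [ih]

theorem walk_reverse {V S : Type} {nb : V → S → Option V}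
    (symm : ∀ x s y, nb x s = some y → nb y s = some x) {x y : V} {w : List S}
    (h : walk nb x w = some y) : walk nb y w.reverse = some x := by
  induction w generalizing x with
  | nil => simpa [walk, eq_comm] using h
  | cons s w ih =>
    simp only [walk] at h
    cases hz : nb x s with
    | none => simp [hz] at h
    | some z =>
      rw [hz] at h
      simp only [Option.bind_some] at h
      rw [List.reverse_cons, walk_append, ih h]
      simp [walk, symm x s z hz]

theorem walk_inj {V S : Type} {nb : V → S → Option V}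
    (symm : ∀ x s y, nb x s = some y → nb y s = some x) {x x' y : V} {w : List S}
    (h : walk nb x w = some y) (h' : walk nb x' w = some y) : x = x' := by
  have h1 := walk_reverse symm h
  rw [walk_reverse symm h'] at h1
  exact (Option.some.inj h1).symm

theorem walk_isSome_left {V S : Type} {nb : V → S → Option V} {x : V} {u v : List S}
    (h : (walk nb x (u ++ v)).isSome) : (walk nb x u).isSome := by
  rw [walk_append] at h
  cases hz : walk nb x u with
  | none => simp [hz] at h
  | some z => rfl

variable {d : ℕ} (G : IG d)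

theorem IG.vtx_spec {x : G.V} {w : List (Fin d)} (h : (walk G.nb x w).isSome) (t : ℕ) :
    walk G.nb x (w.take t) = some (G.vtx x w t) := by
  have h1 : (walk G.nb x (w.take t)).isSome :=
    walk_isSome_left (v := w.drop t) (by rwa [List.take_append_drop])
  obtain ⟨y, hy⟩ := Option.isSome_iff_exists.1 h1
  rw [IG.vtx, hy]
  rfl

theorem IG.seg {x : G.V} {w : List (Fin d)} (h : (walk G.nb x w).isSome) {j k : ℕ}
    (hjk : j ≤ k) :
    walk G.nb (G.vtx x w j) ((w.take k).drop j) = some (G.vtx x w k) := by
  have h1 := G.vtx_spec h k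
  rw [← List.take_append_drop j (w.take k), List.take_take, min_eq_left hjk, walk_append,
    G.vtx_spec h j] at h1
  simpa using h1

theorem IG.seg_one {x : G.V} {w : List (Fin d)} (h : (walk G.nb x w).isSome) {t : ℕ}
    (ht : t < w.length) : G.nb (G.vtx x w t) (w[t]) = some (G.vtx x w (t + 1)) := by
  have h1 := G.seg h (Nat.le_succ t)
  have h2 : (w.take (t + 1)).drop t = [w[t]] := by
    rw [List.take_succ_eq_append_getElem ht, List.drop_append_of_le_length (by simp; omega)]
    simp
  rw [h2] at h1
  simp only [walk] at h1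
  cases hz : G.nb (G.vtx x w t) (w[t]) with
  | none => simp [hz] at h1
  | some z => simpa [hz] using h1

theorem IG.pe_eq {x : G.V} {w : List (Fin d)} (h : (walk G.nb x w).isSome) {t : ℕ}
    (ht : t < w.length) :
    G.pe x w t ht = (s(G.vtx x w t, G.vtx x w (t + 1)), w[t]) := by
  rw [IG.pe, IG.ed, G.seg_one h ht]
  rfl

theorem IG.vtx_inj {x x' : G.V} {w : List (Fin d)} (h : (walk G.nb x w).isSome)
    (h' : (walk G.nb x' w).isSome) {t : ℕ} (e : G.vtx x w t = G.vtx x' w t) : x = x' := by
  have h1 := G.vtx_spec h t
  have h2 := G.vtx_spec h' t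
  rw [e] at h1
  exact walk_inj G.symm h1 h2

theorem IG.vtx_ne {g : ℕ} (hg : G.Girth g) {x : G.V} {w : List (Fin d)} (hw : Red w)
    (h : (walk G.nb x w).isSome) {j k : ℕ} (hjk : j < k) (hk : k ≤ w.length)
    (e : G.vtx x w j = G.vtx x w k) : g ≤ k - j := by
  have h1 := G.seg h hjk.le
  rw [← e] at h1
  have hl : ((w.take k).drop j).length = k - j := by
    simp
    omega
  have h2 := hg _ _ ((List.IsChain.take hw k).drop j) (fun h0 => by
    rw [h0] at hl
    simp at hl
    omega) h1
  omega

theorem IG.pe_inj {g : ℕ} (hg : G.Girth g) {x : G.V} {w : List (Fin d)} (hw : Red w)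
    (h : (walk G.nb x w).isSome) (hn : w.length < g) {j k : ℕ} (hj : j < w.length)
    (hk : k < w.length) (e : G.pe x w j hj = G.pe x w k hk) : j = k := by
  have key : ∀ j k (hj : j < w.length) (hk : k < w.length), j < k →
      G.pe x w j hj ≠ G.pe x w k hk := by
    intro j k hj hk hjk e
    rw [G.pe_eq h hj, G.pe_eq h hk, Prod.mk.injEq, Sym2.eq_iff] at e
    rcases e.1 with ⟨e1, -⟩ | ⟨e1, -⟩
    · have := G.vtx_ne hg hw h hjk hk.le e1
      omega
    · have := G.vtx_ne hg hw h (Nat.lt_succ_of_lt hjk) hk e1
      omega
  rcases lt_trichotomy j k with h1 | h1 | h1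
  · exact absurd e (key j k hj hk h1)
  · exact h1
  · exact absurd e.symm (key k j hk hj h1)

/-- at most one edge is traversed in opposite directions at the same time -/
theorem IG.loop_unique {g : ℕ} (hg : G.Girth g) {x x' : G.V} (hx : x ≠ x') {w : List (Fin d)}
    (hw : Red w) (h : (walk G.nb x w).isSome) (h' : (walk G.nb x' w).isSome)
    (hn : 2 * w.length < g) {j k : ℕ} (hj : j < w.length) (hk : k < w.length)
    (ej : G.pe x w j hj = G.pe x' w j hj) (ek : G.pe x w k hk = G.pe x' w k hk) : j = k := by
  have key : ∀ j k (hj : j < w.length) (hk : k < w.length), j < k →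
      G.pe x w j hj = G.pe x' w j hj → G.pe x w k hk ≠ G.pe x' w k hk := by
    intro j k hj hk hjk ej ek
    rw [G.pe_eq h hj, G.pe_eq h' hj, Prod.mk.injEq, Sym2.eq_iff] at ej
    rw [G.pe_eq h hk, G.pe_eq h' hk, Prod.mk.injEq, Sym2.eq_iff] at ek
    have aj : G.vtx x w j = G.vtx x' w (j + 1) ∧ G.vtx x w (j + 1) = G.vtx x' w j := by
      rcases ej.1 with ⟨e1, -⟩ | e1
      · exact absurd (G.vtx_inj h h' e1) hx
      · exact e1
    have ak : G.vtx x w k = G.vtx x' w (k + 1) ∧ G.vtx x w (k + 1) = G.vtx x' w k := by
      rcases ek.1 with ⟨e1, -⟩ | e1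
      · exact absurd (G.vtx_inj h h' e1) hx
      · exact e1
    set u := (w.take k).drop (j + 1) with hu
    -- from x' at time j to x' at time k + 1
    have h1 := G.seg h' (j := j) (k := k + 1) (by omega)
    rw [← aj.2, ← ak.1] at h1
    have h2 := G.seg h (j := j + 1) (k := k) (by omega)
    have h3 := walk_reverse G.symm h2
    have h4 : walk G.nb (G.vtx x w (j + 1)) ((w.take (k + 1)).drop j ++ u.reverse) =
        some (G.vtx x w (j + 1)) := by
      rw [walk_append, h1]
      exact h3
    have hdec : (w.take (k + 1)).drop j = w[j] :: (u ++ [w[k]]) := by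
      have e1 : w.take (k + 1) = w.take k ++ [w[k]] := List.take_succ_eq_append_getElem hk
      have e2 : (w.take k).drop j = w[j] :: (w.take k).drop (j + 1) := by
        rw [List.drop_eq_getElem_cons (by simp; omega)]
        simp
      rw [e1, List.drop_append_of_le_length (by simp; omega), e2, hu]
      rfl
    have hc1 : Red ((w.take (k + 1)).drop j) := (List.IsChain.take hw (k + 1)).drop j
    have hc2 : Red (u ++ [w[k]]) := by
      rw [hdec] at hc1
      exact List.IsChain.tail hc1
    have hc3 : Red ((w.take (k + 1)).drop j ++ u.reverse) := by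
      unfold Red at hc1 hc2 ⊢
      rw [List.isChain_append] at hc2 ⊢
      refine ⟨hc1, ?_, ?_⟩
      · rw [List.isChain_reverse]
        exact hc2.1.imp fun a b hab => hab.symm
      · intro a ha b hb
        rw [hdec] at ha
        have ha' : a = w[k] := by
          have : (w[j] :: (u ++ [w[k]])).getLast? = some (w[k]) := by
            rw [← List.cons_append, List.getLast?_append]
            simp
          rw [this] at ha
          simpa [eq_comm] using ha
        rw [List.head?_reverse] at hb
        subst ha'
        exact (hc2.2.2 b hb _ (by simp)).symm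
    have h5 := hg _ _ hc3 (by rw [hdec]; simp) h4
    have h6 : ((w.take (k + 1)).drop j ++ u.reverse).length = (k + 1 - j) + (k - (j + 1)) := by
      rw [hu]
      simp
      omega
    omega
  rcases lt_trichotomy j k with h1 | h1 | h1
  · exact absurd ek (key j k hj hk h1 ej)
  · exact h1
  · exact absurd ej (key k j hk hj h1 ek)

/-- a large independent set of positions -/
theorem exists_indep {n : ℕ} {E : Type*} (p q : Fin n → E) (hp : Function.Injective p)
    (hq : Function.Injective q) (hl : ∀ j k, p j = q j → p k = q k → j = k) :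
    ∃ J : Finset (Fin n), n ≤ 3 * J.card + 1 ∧ ∀ j ∈ J, ∀ k ∈ J, p j ≠ q k := by
  obtain ⟨J, hJ, hmax⟩ := Finset.exists_max_image
    ((Finset.univ : Finset (Finset (Fin n))).filter fun J => ∀ j ∈ J, ∀ k ∈ J, p j ≠ q k)
    Finset.card ⟨∅, by simp⟩
  rw [Finset.mem_filter] at hJ
  refine ⟨J, ?_, hJ.2⟩
  set A := (Finset.univ : Finset (Fin n)).filter fun i => p i = q i with hA
  set B := (Finset.univ : Finset (Fin n)).filter fun i => ∃ k ∈ J, p i = q k with hB
  set C := (Finset.univ : Finset (Fin n)).filter fun i => ∃ k ∈ J, p k = q i with hC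
  have hcov : (Finset.univ : Finset (Fin n)) ⊆ J ∪ (A ∪ (B ∪ C)) := by
    intro i _
    by_contra hi
    simp only [Finset.mem_union, not_or] at hi
    obtain ⟨h1, h2, h3, h4⟩ := hi
    have h2' : p i ≠ q i := fun h => h2 (by simp [hA, h])
    have h3' : ∀ k ∈ J, p i ≠ q k := fun k hk h => h3 (by
      rw [hB, Finset.mem_filter]; exact ⟨Finset.mem_univ _, k, hk, h⟩)
    have h4' : ∀ k ∈ J, p k ≠ q i := fun k hk h => h4 (by
      rw [hC, Finset.mem_filter]; exact ⟨Finset.mem_univ _, k, hk, h⟩)
    have h5 := hmax (insert i J) (by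
      rw [Finset.mem_filter]
      refine ⟨Finset.mem_univ _, ?_⟩
      intro a ha b hb
      rcases Finset.mem_insert.1 ha with ha1 | ha1
      · rcases Finset.mem_insert.1 hb with hb1 | hb1
        · rw [ha1, hb1]
          exact h2'
        · rw [ha1]
          exact h3' b hb1
      · rcases Finset.mem_insert.1 hb with hb1 | hb1
        · rw [hb1]
          exact h4' a ha1
        · exact hJ.2 a ha1 b hb1)
    rw [Finset.card_insert_of_notMem h1] at h5
    omega
  have cA : A.card ≤ 1 := by
    rw [Finset.card_le_one]
    intro a ha b hb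
    rw [hA, Finset.mem_filter] at ha hb
    exact hl a b ha.2 hb.2
  have cB : B.card ≤ J.card := by
    have h1 : B.image p ⊆ J.image q := by
      intro e he
      obtain ⟨i, hi, rfl⟩ := Finset.mem_image.1 he
      rw [hB, Finset.mem_filter] at hi
      obtain ⟨-, k, hk, e'⟩ := hi
      rw [e']
      exact Finset.mem_image_of_mem q hk
    have h2 := Finset.card_le_card h1
    rw [Finset.card_image_of_injective B hp, Finset.card_image_of_injective J hq] at h2
    exact h2
  have cC : C.card ≤ J.card := by
    have h1 : C.image q ⊆ J.image p := by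
      intro e he
      obtain ⟨i, hi, rfl⟩ := Finset.mem_image.1 he
      rw [hC, Finset.mem_filter] at hi
      obtain ⟨-, k, hk, e'⟩ := hi
      rw [← e']
      exact Finset.mem_image_of_mem p hk
    have h2 := Finset.card_le_card h1
    rw [Finset.card_image_of_injective C hq, Finset.card_image_of_injective J hp] at h2
    exact h2
  have h1 := Finset.card_le_card hcov
  have h2 := Finset.card_union_le J (A ∪ (B ∪ C))
  have h3 := Finset.card_union_le A (B ∪ C)
  have h4 := Finset.card_union_le B C
  rw [Finset.card_univ, Fintype.card_fin] at h1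
  omega

/-- two readings of a reduced word from different vertices: many edges of the first one that are
disjoint from the corresponding edges of the second one -/
theorem IG.exists_J {g : ℕ} (hg : G.Girth g) {x x' : G.V} (hx : x ≠ x') {w : List (Fin d)}
    (hw : Red w) (h : (walk G.nb x w).isSome) (h' : (walk G.nb x' w).isSome)
    (hn : 2 * w.length < g) :
    ∃ J : Finset (Fin w.length), w.length ≤ 3 * J.card + 1 ∧
      ∀ j ∈ J, ∀ k ∈ J, G.pe x w j j.2 ≠ G.pe x' w k k.2 := by
  refine exists_indep (fun j => G.pe x w j j.2) (fun j => G.pe x' w j j.2) ?_ ?_ ?_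
  · intro j k e
    exact Fin.ext (G.pe_inj hg hw h (by omega) j.2 k.2 e)
  · intro j k e
    exact Fin.ext (G.pe_inj hg hw h' (by omega) j.2 k.2 e)
  · intro j k ej ek
    exact Fin.ext (G.loop_unique hg hx hw h h' hn j.2 k.2 ej ek)

/-- at most `2 |w|` readings of a word `w` pass through a given edge -/
theorem IG.card_through (w : List (Fin d)) (e : Sym2 G.V × Fin d) :
    ((Finset.univ : Finset G.V).filter fun x => (walk G.nb x w).isSome ∧
      ∃ (t : ℕ) (ht : t < w.length), G.pe x w t ht = e).card ≤ 2 * w.length := by
  have h1 : ((Finset.univ : Finset G.V).filter fun x => (walk G.nb x w).isSome ∧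
      ∃ (t : ℕ) (ht : t < w.length), G.pe x w t ht = e) ⊆
      (Finset.univ : Finset (Fin w.length)).biUnion fun t =>
        (Finset.univ : Finset G.V).filter fun x => (walk G.nb x w).isSome ∧
          G.pe x w t t.2 = e := by
    intro x hx
    rw [Finset.mem_filter] at hx
    obtain ⟨-, h, t, ht, he⟩ := hx
    refine Finset.mem_biUnion.2 ⟨⟨t, ht⟩, Finset.mem_univ _, ?_⟩
    rw [Finset.mem_filter]
    exact ⟨Finset.mem_univ _, h, he⟩
  refine (Finset.card_le_card h1).trans (Finset.card_biUnion_le.trans ?_)
  have h2 : ∀ t ∈ (Finset.univ : Finset (Fin w.length)),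
      ((Finset.univ : Finset G.V).filter fun x => (walk G.nb x w).isSome ∧
          G.pe x w t t.2 = e).card ≤ 2 := by
    intro t _
    obtain ⟨⟨a, b⟩, i⟩ := e
    have h3 : ((Finset.univ : Finset G.V).filter fun x => (walk G.nb x w).isSome ∧
          G.pe x w t t.2 = (Quot.mk _ (a, b), i)).card ≤ ({a, b} : Finset G.V).card := by
      refine Finset.card_le_card_of_injOn (fun x => G.vtx x w t) ?_ ?_
      · intro x hx
        rw [Finset.mem_coe, Finset.mem_filter] at hx
        obtain ⟨-, h, he⟩ := hx
        rw [G.pe_eq h t.2, Prod.mk.injEq] at he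
        have he1 : s(G.vtx x w t, G.vtx x w (t + 1)) = s(a, b) := he.1
        rw [Sym2.eq_iff] at he1
        rw [Finset.mem_coe, Finset.mem_insert, Finset.mem_singleton]
        rcases he1 with h5 | h5
        · exact Or.inl h5.1
        · exact Or.inr h5.1
      · intro x hx x' hx' e
        rw [Finset.mem_coe, Finset.mem_filter] at hx hx'
        exact G.vtx_inj hx.2.1 hx'.2.1 e
    exact h3.trans Finset.card_le_two
  refine (Finset.sum_le_sum h2).trans ?_
  simp [mul_comm]

end P089.BC
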