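import Mathlib

/-!
# P089, Part B-c: the counting lemma of Rosenfeld

`E` is a finite set of edges, `M` a finite set of labels, `Ev k` (`k : κ`) are finitely many bad
events for labellings `E → M`; `Ev k` depends only on the labels of `supp k`, and a labelling
for which `Ev k` happens is determined by its labels outside `D k`.
If `∑_{k : e ∈ supp k} (2 / m) ^ (|D k| - 1) ≤ 1 / 2` for every edge `e`, then some labelling avoids
all bad events.
-/

namespace P089.BC

open Finset

variable {E M κ : Type*} [Fintype E] [DecidableEq E] [Fintype M] [DecidableEq M] [Fintype κ]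

open Classical in
/-- the labellings of the edges in `U` without bad event -/
noncomputable def good (supp : κ → Finset E) (Ev : κ → (E → M) → Prop) (d : M) (U : Finset E) :
    Finset (E → M) :=
  univ.filter fun l => (∀ e, e ∉ U → l e = d) ∧ ∀ k, supp k ⊆ U → ¬ Ev k l

theorem mem_good {supp : κ → Finset E} {Ev : κ → (E → M) → Prop} {d : M} {U : Finset E}
    {l : E → M} : l ∈ good supp Ev d U ↔
      (∀ e, e ∉ U → l e = d) ∧ ∀ k, supp k ⊆ U → ¬ Ev k l := by
  simp [good]

theorem good_empty {supp : κ → Finset E} {Ev : κ → (E → M) → Prop} {d : M}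
    (hne : ∀ k, (supp k).Nonempty) : 1 ≤ (good supp Ev d ∅).card := by
  refine Finset.card_pos.2 ⟨fun _ => d, mem_good.2 ⟨fun _ _ => rfl, fun k hk => ?_⟩⟩
  exact absurd (Finset.subset_empty.1 hk) (hne k).ne_empty

/-- chains of the one edge estimate -/
theorem good_chain {supp : κ → Finset E} {Ev : κ → (E → M) → Prop} {d : M} {r : ℝ} (hr : 0 ≤ r)
    {n : ℕ}
    (h : ∀ U : Finset E, U.card < n → ∀ e, e ∉ U →
      r * (good supp Ev d U).card ≤ (good supp Ev d (insert e U)).card)
    (W T : Finset E) (hWT : Disjoint W T) (hn : (W ∪ T).card ≤ n) :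
    r ^ T.card * (good supp Ev d W).card ≤ (good supp Ev d (W ∪ T)).card := by
  induction T using Finset.induction_on with
  | empty => simp
  | insert a T ha ih =>
    have haW : a ∉ W := fun h' => (Finset.disjoint_left.1 hWT h') (Finset.mem_insert_self a T)
    have haU : a ∉ W ∪ T := by
      simp [ha, haW]
    have e1 : W ∪ insert a T = insert a (W ∪ T) := Finset.union_insert a W T
    rw [e1, Finset.card_insert_of_notMem haU] at hn
    have h1 := ih (Finset.disjoint_of_subset_right (Finset.subset_insert a T) hWT) (by omega)
    have h2 := h (W ∪ T) (by omega) a haU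
    rw [e1, Finset.card_insert_of_notMem ha, pow_succ]
    calc r ^ T.card * r * (good supp Ev d W).card
        = r * (r ^ T.card * (good supp Ev d W).card) := by ring
      _ ≤ r * (good supp Ev d (W ∪ T)).card := mul_le_mul_of_nonneg_left h1 hr
      _ ≤ _ := h2

/-- the labellings of `insert e U` whose restriction to `U` is good -/
theorem card_ext {supp : κ → Finset E} {Ev : κ → (E → M) → Prop} {d : M} {U : Finset E} {e : E}
    (he : e ∉ U) (S : Finset (E → M))
    (hS : ∀ l, l ∈ S ↔ (∀ x, x ∉ insert e U → l x = d) ∧
      Function.update l e d ∈ good supp Ev d U) :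
    (Fintype.card M : ℝ) * (good supp Ev d U).card ≤ S.card := by
  have h1 : ((good supp Ev d U) ×ˢ (univ : Finset M)).card ≤ S.card := by
    refine Finset.card_le_card_of_injOn (fun p => Function.update p.1 e p.2) ?_ ?_
    · rintro ⟨l, a⟩ hl
      simp only [Finset.coe_product, Set.mem_prod, Finset.mem_coe] at hl
      simp only [Finset.mem_coe]
      rw [hS]
      have hl1 := (mem_good.1 hl.1).1
      constructor
      · intro x hx
        simp only [Finset.mem_insert, not_or] at hx
        rw [Function.update_of_ne hx.1]
        exact hl1 x hx.2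
      · have : Function.update (Function.update l e a) e d = l := by
          rw [Function.update_idem, ← hl1 e he, Function.update_eq_self]
        rw [this]
        exact hl.1
    · rintro ⟨l, a⟩ hl ⟨l', a'⟩ hl' h
      simp only [Finset.coe_product, Set.mem_prod, Finset.mem_coe] at hl hl' h
      have e1 : a = a' := by
        have := congrFun h e
        simpa using this
      subst e1
      have e2 : l = l' := by
        funext x
        by_cases hx : x = e
        · subst hx
          rw [(mem_good.1 hl.1).1 x he, (mem_good.1 hl'.1).1 x he]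
        · have := congrFun h x
          rwa [Function.update_of_ne hx, Function.update_of_ne hx] at this
      rw [e2]
  rw [Finset.card_product, Finset.card_univ] at h1
  calc (Fintype.card M : ℝ) * (good supp Ev d U).card
      = (((good supp Ev d U).card * Fintype.card M : ℕ) : ℝ) := by push_cast; ring
    _ ≤ S.card := by exact_mod_cast h1

/-- the labellings with the bad event `k` -/
theorem card_bad {supp D : κ → Finset E} {Ev : κ → (E → M) → Prop} {d : M} {U : Finset E} {e : E}
    (hdep : ∀ k (l l' : E → M), (∀ x, x ∈ supp k → l x = l' x) → Ev k l → Ev k l')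
    (hdet : ∀ k (l l' : E → M), Ev k l → Ev k l' → (∀ x, x ∉ D k → l x = l' x) → l = l')
    (he : e ∉ U) (k : κ) (S : Finset (E → M))
    (hS : ∀ l, l ∈ S → (∀ x, x ∉ insert e U → l x = d) ∧
      Function.update l e d ∈ good supp Ev d U ∧ Ev k l) :
    (S.card : ℝ) ≤ Fintype.card M * (good supp Ev d (U \ D k)).card := by
  have h1 : S.card ≤ ((good supp Ev d (U \ D k)) ×ˢ (univ : Finset M)).card := by
    refine Finset.card_le_card_of_injOn
      (fun l => (fun x => if x ∈ D k ∨ x = e then d else l x, l e)) ?_ ?_
    · intro l hl
      obtain ⟨h1, h2, h3⟩ := hS l hl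
      simp only [Finset.coe_product, Set.mem_prod, Finset.mem_coe, Finset.mem_univ, and_true,
        mem_good]
      constructor
      · intro x hx
        by_cases hx' : x ∈ D k ∨ x = e
        · rw [if_pos hx']
        · rw [if_neg hx']
          refine h1 x ?_
          simp only [Finset.mem_insert, not_or]
          refine ⟨fun h => hx' (Or.inr h), fun h => hx ?_⟩
          rw [Finset.mem_sdiff]
          exact ⟨h, fun h' => hx' (Or.inl h')⟩
      · intro k' hk' hE
        refine (mem_good.1 h2).2 k' (hk'.trans Finset.sdiff_subset) (hdep k' _ _ ?_ hE)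
        intro x hx
        have hx1 := Finset.mem_sdiff.1 (hk' hx)
        have hxe : x ≠ e := fun h => he (h ▸ hx1.1)
        rw [Function.update_of_ne hxe, if_neg]
        rintro (h | h)
        · exact hx1.2 h
        · exact hxe h
    · intro l hl l' hl' h
      simp only [Prod.mk.injEq] at h
      obtain ⟨h, he'⟩ := h
      refine hdet k l l' (hS l hl).2.2 (hS l' hl').2.2 fun x hx => ?_
      by_cases hxe : x = e
      · rw [hxe, he']
      · have := congrFun h x
        have hx' : ¬ (x ∈ D k ∨ x = e) := by
          rintro (h | h)
          · exact hx h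
          · exact hxe h
        simpa only [if_neg hx'] using this
  rw [Finset.card_product, Finset.card_univ] at h1
  calc (S.card : ℝ) ≤ (((good supp Ev d (U \ D k)).card * Fintype.card M : ℕ) : ℝ) := by
        exact_mod_cast h1
    _ = _ := by push_cast; ring

/-- **Rosenfeld's counting lemma**, the estimate for one edge. -/
theorem good_insert {supp D : κ → Finset E} {Ev : κ → (E → M) → Prop} (d : M)
    (hdep : ∀ k (l l' : E → M), (∀ x, x ∈ supp k → l x = l' x) → Ev k l → Ev k l')
    (hD : ∀ k, D k ⊆ supp k)
    (hdet : ∀ k (l l' : E → M), Ev k l → Ev k l' → (∀ x, x ∉ D k → l x = l' x) → l = l')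
    (hm : 2 ≤ Fintype.card M)
    (hsum : ∀ e, ∑ k ∈ univ.filter (fun k => e ∈ supp k),
      (2 / (Fintype.card M : ℝ)) ^ ((D k).card - 1) ≤ 1 / 2) :
    ∀ U : Finset E, ∀ e, e ∉ U →
      ((Fintype.card M : ℝ) / 2) * (good supp Ev d U).card ≤
        (good supp Ev d (insert e U)).card := by
  classical
  set m : ℝ := (Fintype.card M : ℝ) with hmdef
  have hm2 : (2 : ℝ) ≤ m := by rw [hmdef]; exact_mod_cast hm
  have hm0 : 0 < m := by linarith
  have key : ∀ n : ℕ, ∀ U : Finset E, U.card < n → ∀ e, e ∉ U →
      (m / 2) * (good supp Ev d U).card ≤ (good supp Ev d (insert e U)).card := by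
    intro n
    induction n with
    | zero => intro U hU; omega
    | succ n ih =>
      intro U hU e he
      set S : Finset (E → M) := univ.filter fun l => (∀ x, x ∉ insert e U → l x = d) ∧
        Function.update l e d ∈ good supp Ev d U with hSdef
      have hS : ∀ l, l ∈ S ↔ (∀ x, x ∉ insert e U → l x = d) ∧
        Function.update l e d ∈ good supp Ev d U := by
        intro l; simp [hSdef]
      have h1 := card_ext he S hS
      set K : Finset κ := univ.filter fun k => e ∈ supp k with hK
      set Bd : κ → Finset (E → M) := fun k => S.filter fun l => Ev k l ∧ supp k ⊆ insert e U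
        with hBd
      have hcov : S ⊆ good supp Ev d (insert e U) ∪ K.biUnion Bd := by
        intro l hl
        have hl' := (hS l).1 hl
        by_cases hg : l ∈ good supp Ev d (insert e U)
        · exact Finset.mem_union_left _ hg
        · refine Finset.mem_union_right _ ?_
          rw [mem_good, not_and] at hg
          have hg' := hg hl'.1
          push Not at hg'
          obtain ⟨k, hk, hE⟩ := hg'
          refine Finset.mem_biUnion.2 ⟨k, ?_, ?_⟩
          · rw [hK, Finset.mem_filter]
            refine ⟨Finset.mem_univ _, ?_⟩
            by_contra hek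
            have hkU : supp k ⊆ U := fun x hx => by
              rcases Finset.mem_insert.1 (hk hx) with h | h
              · exact absurd (h ▸ hx) hek
              · exact h
            refine (mem_good.1 hl'.2).2 k hkU (hdep k l _ (fun x hx => ?_) hE)
            have hxe : x ≠ e := fun h => hek (h ▸ hx)
            rw [Function.update_of_ne hxe]
          · rw [hBd, Finset.mem_filter]
            exact ⟨hl, hE, hk⟩
      have h2 : (S.card : ℝ) ≤ (good supp Ev d (insert e U)).card + ∑ k ∈ K, ((Bd k).card : ℝ) := by
        have := (Finset.card_le_card hcov).trans (Finset.card_union_le _ _)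
        have h3 := this.trans (Nat.add_le_add_left Finset.card_biUnion_le _)
        exact_mod_cast h3
      have h4 : ∀ k ∈ K, ((Bd k).card : ℝ) ≤
          m * ((2 / m) ^ ((D k).card - 1) * (good supp Ev d U).card) := by
        intro k hk
        by_cases hkU : supp k ⊆ insert e U
        · have h5 : ((Bd k).card : ℝ) ≤ m * (good supp Ev d (U \ D k)).card := by
            refine card_bad hdep hdet he k (Bd k) fun l hl => ?_
            rw [hBd, Finset.mem_filter] at hl
            exact ⟨((hS l).1 hl.1).1, ((hS l).1 hl.1).2, hl.2.1⟩
          have h6 := good_chain (supp := supp) (Ev := Ev) (d := d) (r := m / 2) (by positivity) (n := n)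
            (fun U' hU' e' he' => ih U' hU' e' he') (U \ D k) (U ∩ D k)
            (Finset.disjoint_left.2 fun x hx hx' =>
              (Finset.mem_sdiff.1 hx).2 (Finset.mem_inter.1 hx').2)
            (by rw [Finset.sdiff_union_inter]; omega)
          rw [Finset.sdiff_union_inter] at h6
          have h7 : (D k).card - 1 ≤ (U ∩ D k).card := by
            have h8 : D k ⊆ insert e (U ∩ D k) := by
              intro x hx
              rcases Finset.mem_insert.1 (hkU (hD k hx)) with h | h
              · exact h ▸ Finset.mem_insert_self _ _
              · exact Finset.mem_insert_of_mem (Finset.mem_inter.2 ⟨h, hx⟩)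
            have h9 := (Finset.card_le_card h8).trans (Finset.card_insert_le _ _)
            omega
          have h10 : (m / 2) ^ ((D k).card - 1) * (good supp Ev d (U \ D k)).card ≤
              (good supp Ev d U).card := by
            refine le_trans (mul_le_mul_of_nonneg_right ?_ (by positivity)) h6
            exact pow_le_pow_right₀ (by linarith) h7
          have h11 : ((good supp Ev d (U \ D k)).card : ℝ) ≤
              (2 / m) ^ ((D k).card - 1) * (good supp Ev d U).card := by
            have h12 : (2 / m) ^ ((D k).card - 1) * ((m / 2) ^ ((D k).card - 1) *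
                ((good supp Ev d (U \ D k)).card : ℝ)) = (good supp Ev d (U \ D k)).card := by
              rw [← mul_assoc, ← mul_pow]
              have : 2 / m * (m / 2) = 1 := by field_simp
              rw [this, one_pow, one_mul]
            rw [← h12]
            exact mul_le_mul_of_nonneg_left h10 (by positivity)
          exact h5.trans (mul_le_mul_of_nonneg_left h11 hm0.le)
        · have h5 : Bd k = ∅ := by
            rw [hBd]
            refine Finset.filter_false_of_mem fun l _ h => hkU h.2
          rw [h5]
          simp only [Finset.card_empty, Nat.cast_zero]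
          positivity
      have h13 : ∑ k ∈ K, ((Bd k).card : ℝ) ≤ (m / 2) * (good supp Ev d U).card := by
        refine (Finset.sum_le_sum h4).trans ?_
        rw [← Finset.mul_sum, ← Finset.sum_mul]
        have h14 := hsum e
        calc m * ((∑ k ∈ K, (2 / m) ^ ((D k).card - 1)) * (good supp Ev d U).card)
            ≤ m * ((1 / 2) * (good supp Ev d U).card) := by gcongr
          _ = _ := by ring
      have h15 : m * (good supp Ev d U).card ≤ S.card := h1
      linarith
  intro U e he
  exact key (U.card + 1) U (by omega) e he

/-- **Rosenfeld's counting lemma.** -/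
theorem exists_labelling {supp D : κ → Finset E} {Ev : κ → (E → M) → Prop}
    (hdep : ∀ k (l l' : E → M), (∀ x, x ∈ supp k → l x = l' x) → Ev k l → Ev k l')
    (hne : ∀ k, (supp k).Nonempty)
    (hD : ∀ k, D k ⊆ supp k)
    (hdet : ∀ k (l l' : E → M), Ev k l → Ev k l' → (∀ x, x ∉ D k → l x = l' x) → l = l')
    (hm : 2 ≤ Fintype.card M)
    (hsum : ∀ e, ∑ k ∈ univ.filter (fun k => e ∈ supp k),
      (2 / (Fintype.card M : ℝ)) ^ ((D k).card - 1) ≤ 1 / 2) :
    ∃ l : E → M, ∀ k, ¬ Ev k l := by
  obtain ⟨d⟩ : Nonempty M := Fintype.card_pos_iff.1 (by omega)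
  have h1 := good_insert d hdep hD hdet hm hsum
  have hm2 : (2 : ℝ) ≤ (Fintype.card M : ℝ) := by exact_mod_cast hm
  have h2 := good_chain (supp := supp) (Ev := Ev) (d := d) (r := (Fintype.card M : ℝ) / 2)
    (by positivity) (n := (univ : Finset E).card) (fun U _ e he => h1 U e he) ∅ univ
    (Finset.disjoint_empty_left _) (by simp)
  have h3 : (1 : ℝ) ≤ (good supp Ev d ∅).card := by
    exact_mod_cast good_empty (supp := supp) (Ev := Ev) (d := d) hne
  have h4 : 0 < ((good supp Ev d (∅ ∪ univ)).card : ℝ) := by
    refine lt_of_lt_of_le ?_ h2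
    have : 0 < ((Fintype.card M : ℝ) / 2) ^ (univ : Finset E).card := by positivity
    exact mul_pos this (by linarith)
  have h5 : 0 < (good supp Ev d (∅ ∪ univ)).card := by exact_mod_cast h4
  obtain ⟨l, hl⟩ := Finset.card_pos.1 h5
  refine ⟨l, fun k => (mem_good.1 hl).2 k ?_⟩
  simp

end P089.BC
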