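import Mathlib
import Vale.Agent.Lib.P089.BC.RC
import Vale.Agent.Lib.P089.BC.Pairs
import Vale.Agent.Lib.P089.BC.LabDefs

/-!
# P089, Part B-c: separating labels exist

Rosenfeld's counting lemma for one graph, given the labels of the previous ones; then recursion.
-/

namespace P089.BC

open scoped Classical

variable {d : ℕ}

/-- readings of words of length `l` through the edge `e` -/
theorem IG.card_T (G : IG d) (l : ℕ) (e : Sym2 G.V × Fin d) :
    ((Finset.univ : Finset (G.V × List.Vector (Fin d) l)).filter fun p =>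
      (walk G.nb p.1 p.2.1).isSome ∧
        ∃ (t : ℕ) (ht : t < p.2.1.length), G.pe p.1 p.2.1 t ht = e).card ≤ 2 * l * d ^ l := by
  have h1 : ((Finset.univ : Finset (G.V × List.Vector (Fin d) l)).filter fun p =>
      (walk G.nb p.1 p.2.1).isSome ∧
        ∃ (t : ℕ) (ht : t < p.2.1.length), G.pe p.1 p.2.1 t ht = e).card ≤
      ((Finset.univ : Finset (List.Vector (Fin d) l)).sigma fun w =>
        (Finset.univ : Finset G.V).filter fun x => (walk G.nb x w.1).isSome ∧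
          ∃ (t : ℕ) (ht : t < w.1.length), G.pe x w.1 t ht = e).card := by
    refine Finset.card_le_card_of_injOn (fun p => ⟨p.2, p.1⟩) ?_ ?_
    · intro p hp
      rw [Finset.mem_coe, Finset.mem_filter] at hp
      rw [Finset.mem_coe, Finset.mem_sigma, Finset.mem_filter]
      exact ⟨Finset.mem_univ _, Finset.mem_univ _, hp.2⟩
    · rintro ⟨x, w⟩ _ ⟨x', w'⟩ _ h
      simp only [Sigma.mk.injEq, heq_eq_eq] at h
      rw [h.1, h.2]
  refine h1.trans ?_
  rw [Finset.card_sigma]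
  have h2 : ∀ w ∈ (Finset.univ : Finset (List.Vector (Fin d) l)),
      ((Finset.univ : Finset G.V).filter fun x => (walk G.nb x w.1).isSome ∧
          ∃ (t : ℕ) (ht : t < w.1.length), G.pe x w.1 t ht = e).card ≤ 2 * l := by
    intro w _
    exact (G.card_through w.1 e).trans_eq (congrArg (fun n => 2 * n) w.2)
  refine (Finset.sum_le_sum h2).trans ?_
  rw [Finset.sum_const, Finset.card_univ, card_vector, Fintype.card_fin, smul_eq_mul, mul_comm]

/-- strong recursion with choice -/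
theorem exists_strong {α : ℕ → Type} (R : ∀ n, (∀ k, k < n → α k) → α n → Prop)
    (h : ∀ n prev, ∃ a, R n prev a) : ∃ f : ∀ n, α n, ∀ n, R n (fun k _ => f k) (f n) := by
  choose g hg using h
  let f : ∀ n, α n := fun n => Nat.lt_wfRel.wf.fix (fun n prev => g n prev) n
  refine ⟨f, fun n => ?_⟩
  have : f n = g n (fun k _ => f k) := Nat.lt_wfRel.wf.fix_eq (fun n prev => g n prev) n
  rw [this]
  exact hg n _

section Step

variable (G : ℕ → IG d) (L : ℕ → ℕ) (n : ℕ)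

/-- bad events of the first type -/
def K1 : Type := {p : (G n).V × (G n).V × List.Vector (Fin d) (L n) // p.1 ≠ p.2.1 ∧
  Red p.2.2.1 ∧ (walk (G n).nb p.1 p.2.2.1).isSome ∧ (walk (G n).nb p.2.1 p.2.2.1).isSome}

/-- bad events of the second type -/
def K2 (k : ℕ) : Type := {p : (G k).V × (G n).V × List.Vector (Fin d) (L k) //
  Red p.2.2.1 ∧ (walk (G k).nb p.1 p.2.2.1).isSome ∧ (walk (G n).nb p.2.1 p.2.2.1).isSome}

noncomputable instance : Fintype (K1 G L n) := by unfold K1; infer_instance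

noncomputable instance (k : ℕ) : Fintype (K2 G L n k) := by unfold K2; infer_instance

variable {G L n}

/-- edges of a reading -/
noncomputable def pes (H : IG d) (x : H.V) (w : List (Fin d)) : Finset (Sym2 H.V × Fin d) :=
  (Finset.univ : Finset (Fin w.length)).image fun t : Fin w.length => H.pe x w t.1 t.2

theorem mem_pes {H : IG d} {x : H.V} {w : List (Fin d)} {e : Sym2 H.V × Fin d} :
    e ∈ pes H x w ↔ ∃ (t : ℕ) (ht : t < w.length), H.pe x w t ht = e := by
  rw [pes, Finset.mem_image]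
  constructor
  · rintro ⟨t, -, h⟩
    exact ⟨t, t.2, h⟩
  · rintro ⟨t, ht, h⟩
    exact ⟨⟨t, ht⟩, Finset.mem_univ _, h⟩

theorem card_pes {H : IG d} {g : ℕ} (hg : H.Girth g) {x : H.V} {w : List (Fin d)} (hw : Red w)
    (h : (walk H.nb x w).isSome) (hn : w.length < g) : (pes H x w).card = w.length := by
  rw [pes, Finset.card_image_of_injective, Finset.card_univ, Fintype.card_fin]
  intro j k e
  exact Fin.ext (H.pe_inj hg hw h hn j.2 k.2 e)

theorem card_K1 (e : Sym2 (G n).V × Fin d) :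
    ((Finset.univ : Finset (K1 G L n)).filter fun p =>
      e ∈ pes (G n) p.1.1 p.1.2.2.1 ∪ pes (G n) p.1.2.1 p.1.2.2.1).card ≤
      4 * L n * d ^ (L n) * Fintype.card (G n).V := by
  set T := ((Finset.univ : Finset ((G n).V × List.Vector (Fin d) (L n))).filter fun p =>
      (walk (G n).nb p.1 p.2.1).isSome ∧
        ∃ (t : ℕ) (ht : t < p.2.1.length), (G n).pe p.1 p.2.1 t ht = e) with hT
  have hTc : T.card ≤ 2 * L n * d ^ (L n) := (G n).card_T (L n) e
  have h1 : ((Finset.univ : Finset (K1 G L n)).filter fun p =>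
      e ∈ pes (G n) p.1.1 p.1.2.2.1 ∪ pes (G n) p.1.2.1 p.1.2.2.1) ⊆
      ((Finset.univ : Finset (K1 G L n)).filter fun p => e ∈ pes (G n) p.1.1 p.1.2.2.1) ∪
      ((Finset.univ : Finset (K1 G L n)).filter fun p => e ∈ pes (G n) p.1.2.1 p.1.2.2.1) := by
    intro p hp
    rw [Finset.mem_filter, Finset.mem_union] at hp
    rw [Finset.mem_union, Finset.mem_filter, Finset.mem_filter]
    exact hp.2.imp (fun h => ⟨Finset.mem_univ _, h⟩) (fun h => ⟨Finset.mem_univ _, h⟩)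
  have h2 : ((Finset.univ : Finset (K1 G L n)).filter fun p =>
      e ∈ pes (G n) p.1.1 p.1.2.2.1).card ≤ ((Finset.univ : Finset (G n).V) ×ˢ T).card := by
    refine Finset.card_le_card_of_injOn (fun p => (p.1.2.1, (p.1.1, p.1.2.2))) ?_ ?_
    · intro p hp
      rw [Finset.mem_coe, Finset.mem_filter] at hp
      rw [Finset.mem_coe, Finset.mem_product, hT, Finset.mem_filter]
      exact ⟨Finset.mem_univ _, Finset.mem_univ _, p.2.2.2.1, mem_pes.1 hp.2⟩
    · rintro ⟨⟨x, x', w⟩, hp⟩ _ ⟨⟨y, y', v⟩, hq⟩ _ h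
      simp only [Prod.mk.injEq] at h
      obtain ⟨rfl, rfl, rfl⟩ := h
      rfl
  have h3 : ((Finset.univ : Finset (K1 G L n)).filter fun p =>
      e ∈ pes (G n) p.1.2.1 p.1.2.2.1).card ≤ ((Finset.univ : Finset (G n).V) ×ˢ T).card := by
    refine Finset.card_le_card_of_injOn (fun p => (p.1.1, (p.1.2.1, p.1.2.2))) ?_ ?_
    · intro p hp
      rw [Finset.mem_coe, Finset.mem_filter] at hp
      rw [Finset.mem_coe, Finset.mem_product, hT, Finset.mem_filter]
      exact ⟨Finset.mem_univ _, Finset.mem_univ _, p.2.2.2.2, mem_pes.1 hp.2⟩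
    · rintro ⟨⟨x, x', w⟩, hp⟩ _ ⟨⟨y, y', v⟩, hq⟩ _ h
      simp only [Prod.mk.injEq] at h
      obtain ⟨rfl, rfl, rfl⟩ := h
      rfl
  rw [Finset.card_product, Finset.card_univ] at h2 h3
  have h4 := (Finset.card_le_card h1).trans (Finset.card_union_le _ _)
  have h5 : Fintype.card (G n).V * T.card ≤ Fintype.card (G n).V * (2 * L n * d ^ (L n)) :=
    Nat.mul_le_mul_left _ hTc
  calc _ ≤ Fintype.card (G n).V * (2 * L n * d ^ (L n)) +
        Fintype.card (G n).V * (2 * L n * d ^ (L n)) := h4.trans (add_le_add (h2.trans h5) (h3.trans h5))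
    _ = _ := by ring

theorem card_K2 (k : ℕ) (e : Sym2 (G n).V × Fin d) :
    ((Finset.univ : Finset (K2 G L n k)).filter fun p =>
      e ∈ pes (G n) p.1.2.1 p.1.2.2.1).card ≤
      2 * L k * d ^ (L k) * Fintype.card (G k).V := by
  set T := ((Finset.univ : Finset ((G n).V × List.Vector (Fin d) (L k))).filter fun p =>
      (walk (G n).nb p.1 p.2.1).isSome ∧
        ∃ (t : ℕ) (ht : t < p.2.1.length), (G n).pe p.1 p.2.1 t ht = e) with hT
  have hTc : T.card ≤ 2 * L k * d ^ (L k) := (G n).card_T (L k) e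
  have h3 : ((Finset.univ : Finset (K2 G L n k)).filter fun p =>
      e ∈ pes (G n) p.1.2.1 p.1.2.2.1).card ≤ ((Finset.univ : Finset (G k).V) ×ˢ T).card := by
    refine Finset.card_le_card_of_injOn (fun p => (p.1.1, (p.1.2.1, p.1.2.2))) ?_ ?_
    · intro p hp
      rw [Finset.mem_coe, Finset.mem_filter] at hp
      rw [Finset.mem_coe, Finset.mem_product, hT, Finset.mem_filter]
      exact ⟨Finset.mem_univ _, Finset.mem_univ _, p.2.2.2, mem_pes.1 hp.2⟩
    · rintro ⟨⟨x, x', w⟩, hp⟩ _ ⟨⟨y, y', v⟩, hq⟩ _ h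
      simp only [Prod.mk.injEq] at h
      obtain ⟨rfl, rfl, rfl⟩ := h
      rfl
  rw [Finset.card_product, Finset.card_univ] at h3
  calc _ ≤ Fintype.card (G k).V * (2 * L k * d ^ (L k)) := h3.trans (Nat.mul_le_mul_left _ hTc)
    _ = _ := by ring

end Step

theorem numeric_one {a Q : ℕ} (ha : 1 ≤ a) (hQ : Q = 4 * a) (l : ℕ) :
    (l : ℝ) * a ^ l / Q ^ l ≤ (1 / 2) ^ l := by
  have ha0 : (0 : ℝ) < a := by exact_mod_cast ha
  have h1 : (a : ℝ) ^ l / Q ^ l = (1 / 4) ^ l := by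
    rw [← div_pow, hQ]
    congr 1
    push_cast
    field_simp
  have h2 : (l : ℝ) ≤ 2 ^ l := by exact_mod_cast (Nat.lt_two_pow_self (n := l)).le
  calc (l : ℝ) * a ^ l / Q ^ l = l * (1 / 4) ^ l := by rw [mul_div_assoc, h1]
    _ ≤ 2 ^ l * (1 / 4) ^ l := mul_le_mul_of_nonneg_right h2 (by positivity)
    _ = (1 / 2) ^ l := by
      rw [← mul_pow]
      norm_num

theorem numeric_two {Q l : ℕ} (hQ : 1 ≤ Q) (h0 : 32 * Q ^ 4 ≤ l) :
    (1 / 2 : ℝ) ^ l ≤ 1 / (32 * (Q : ℝ) ^ 4) := by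
  have h1 : (32 * (Q : ℝ) ^ 4) ≤ 2 ^ l := by
    have : 32 * Q ^ 4 ≤ 2 ^ l := h0.trans (Nat.lt_two_pow_self (n := l)).le
    exact_mod_cast this
  have hQ0 : (0 : ℝ) < Q := by exact_mod_cast hQ
  rw [one_div_pow]
  exact one_div_le_one_div_of_le (by positivity) h1

/-- the numerical estimate -/
theorem numeric (a Q : ℕ) (ha : 1 ≤ a) (hQ : Q = 4 * a) (L : ℕ → ℕ) (hL : StrictMono L)
    (h0 : 32 * Q ^ 4 ≤ L 0) (n : ℕ) :
    (8 * (L n : ℝ) * a ^ (L n)) * ((Q : ℝ) ^ 4 / Q ^ (L n)) +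
      ∑ k : Fin n, (4 * (L k : ℝ) * a ^ (L k)) * ((Q : ℝ) ^ 3 / ((Q : ℝ) ^ 3) ^ (L k)) ≤ 1 / 2 := by
  have hQ1 : 1 ≤ Q := by omega
  have hQr : (1 : ℝ) ≤ Q := by exact_mod_cast hQ1
  have hQ0 : (0 : ℝ) < Q := by linarith
  have hmono : ∀ k, L 0 + k ≤ L k := by
    intro k
    induction k with
    | zero => simp
    | succ k ih =>
      have := hL (show k < k + 1 by omega)
      omega
  have h1 : (8 * (L n : ℝ) * a ^ (L n)) * ((Q : ℝ) ^ 4 / Q ^ (L n)) ≤ 1 / 4 := by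
    have e1 : (8 * (L n : ℝ) * a ^ (L n)) * ((Q : ℝ) ^ 4 / Q ^ (L n)) =
        8 * (Q : ℝ) ^ 4 * ((L n : ℝ) * a ^ (L n) / Q ^ (L n)) := by ring
    rw [e1]
    calc 8 * (Q : ℝ) ^ 4 * ((L n : ℝ) * a ^ (L n) / Q ^ (L n))
        ≤ 8 * (Q : ℝ) ^ 4 * (1 / 2) ^ (L n) :=
          mul_le_mul_of_nonneg_left (numeric_one ha hQ (L n)) (by positivity)
      _ ≤ 8 * (Q : ℝ) ^ 4 * (1 / (32 * (Q : ℝ) ^ 4)) :=
          mul_le_mul_of_nonneg_left (numeric_two hQ1 (h0.trans (by have := hmono n; omega)))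
            (by positivity)
      _ = 1 / 4 := by field_simp; norm_num
  have h2 : ∀ k ∈ (Finset.univ : Finset (Fin n)),
      (4 * (L k : ℝ) * a ^ (L k)) * ((Q : ℝ) ^ 3 / ((Q : ℝ) ^ 3) ^ (L k)) ≤
        4 * (Q : ℝ) ^ 3 * (1 / 2) ^ (L 0) * (1 / 2) ^ (k : ℕ) := by
    intro k _
    have e1 : (4 * (L k : ℝ) * a ^ (L k)) * ((Q : ℝ) ^ 3 / ((Q : ℝ) ^ 3) ^ (L k)) =
        4 * (Q : ℝ) ^ 3 * ((L k : ℝ) * a ^ (L k) / ((Q : ℝ) ^ 3) ^ (L k)) := by ring
    rw [e1]
    have e2 : (L k : ℝ) * a ^ (L k) / ((Q : ℝ) ^ 3) ^ (L k) ≤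
        (L k : ℝ) * a ^ (L k) / (Q : ℝ) ^ (L k) := by
      refine div_le_div_of_nonneg_left (by positivity) (by positivity) ?_
      exact pow_le_pow_left₀ hQ0.le (by nlinarith [mul_self_nonneg ((Q : ℝ) - 1)]) _
    have e3 : (1 / 2 : ℝ) ^ (L k) ≤ (1 / 2) ^ (L 0 + (k : ℕ)) :=
      pow_le_pow_of_le_one (by norm_num) (by norm_num) (hmono k)
    rw [pow_add] at e3
    calc 4 * (Q : ℝ) ^ 3 * ((L k : ℝ) * a ^ (L k) / ((Q : ℝ) ^ 3) ^ (L k))
        ≤ 4 * (Q : ℝ) ^ 3 * ((1 / 2) ^ (L 0) * (1 / 2) ^ (k : ℕ)) :=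
          mul_le_mul_of_nonneg_left
            ((e2.trans (numeric_one ha hQ (L k))).trans e3) (by positivity)
      _ = _ := by ring
  have h3 : ∑ k : Fin n, (1 / 2 : ℝ) ^ (k : ℕ) ≤ 2 := by
    rw [Fin.sum_univ_eq_sum_range (fun k => (1 / 2 : ℝ) ^ k) n]
    exact sum_geometric_two_le n
  have h4 : ∑ k : Fin n, (4 * (L k : ℝ) * a ^ (L k)) *
      ((Q : ℝ) ^ 3 / ((Q : ℝ) ^ 3) ^ (L k)) ≤ 1 / 4 := by
    refine (Finset.sum_le_sum h2).trans ?_
    rw [← Finset.mul_sum]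
    calc 4 * (Q : ℝ) ^ 3 * (1 / 2) ^ (L 0) * ∑ k : Fin n, (1 / 2 : ℝ) ^ (k : ℕ)
        ≤ 4 * (Q : ℝ) ^ 3 * (1 / 2) ^ (L 0) * 2 :=
          mul_le_mul_of_nonneg_left h3 (by positivity)
      _ ≤ 4 * (Q : ℝ) ^ 3 * (1 / (32 * (Q : ℝ) ^ 4)) * 2 := by
          have := numeric_two hQ1 h0
          gcongr
      _ = 1 / (4 * Q) := by field_simp; norm_num
      _ ≤ 1 / 4 := by
          rw [div_le_div_iff_of_pos_left (by norm_num) (by positivity) (by norm_num)]
          linarith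
  linarith

theorem step {D : ℕ} (hd : 1 ≤ d) (hD : 1 ≤ D) (G : ℕ → IG d) (L : ℕ → ℕ) (hL : StrictMono L)
    (hg : ∀ n, (G n).Girth (100 * L n)) (hc : ∀ n, Fintype.card (G n).V ≤ 2 * D ^ (L n))
    (Q m : ℕ) (hQ : Q = 4 * (D * d)) (hm : m = 2 * Q ^ 3) (h0 : 32 * Q ^ 4 ≤ L 0) (n : ℕ)
    (prev : ∀ k, k < n → (Sym2 (G k).V × Fin d → Fin m)) :
    ∃ new : Sym2 (G n).V × Fin d → Fin m,
      (∀ (x x' : (G n).V) (w : List (Fin d)), x ≠ x' → Red w → w.length = L n →
        (walk (G n).nb x w).isSome → (walk (G n).nb x' w).isSome →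
        ∃ (t : ℕ) (ht : t < w.length), new ((G n).pe x w t ht) ≠ new ((G n).pe x' w t ht)) ∧
      ∀ k (hk : k < n) (x : (G k).V) (x' : (G n).V) (w : List (Fin d)), Red w →
        w.length = L k → (walk (G k).nb x w).isSome → (walk (G n).nb x' w).isSome →
        ∃ (t : ℕ) (ht : t < w.length),
          prev k hk ((G k).pe x w t ht) ≠ new ((G n).pe x' w t ht) := by
  have ha : 1 ≤ D * d := Nat.mul_pos hD hd
  have hQ1 : 1 ≤ Q := by omega
  have hQr : (1 : ℝ) ≤ Q := by exact_mod_cast hQ1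
  have hQ0 : (0 : ℝ) < Q := by linarith
  have hmono : ∀ k, L 0 ≤ L k := fun k => hL.monotone (Nat.zero_le k)
  have hQ4 : 1 ≤ Q ^ 4 := Nat.one_le_pow _ _ hQ1
  have hLb : ∀ k, 32 ≤ L k := fun k => by have := hmono k; omega
  -- the independent positions
  have hJ : ∀ p : K1 G L n, ∃ J : Finset (Fin p.1.2.2.1.length),
      p.1.2.2.1.length ≤ 3 * J.card + 1 ∧ ∀ j ∈ J, ∀ k ∈ J,
        (G n).pe p.1.1 p.1.2.2.1 j j.2 ≠ (G n).pe p.1.2.1 p.1.2.2.1 k k.2 := by
    intro p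
    refine (G n).exists_J (hg n) p.2.1 p.2.2.1 p.2.2.2.1 p.2.2.2.2 ?_
    have h1 : p.1.2.2.1.length = L n := p.1.2.2.2
    have := hLb n
    omega
  choose J hJ1 hJ2 using hJ
  let supp : K1 G L n ⊕ (Σ k : Fin n, K2 G L n k) → Finset (Sym2 (G n).V × Fin d) :=
    Sum.elim (fun p => pes (G n) p.1.1 p.1.2.2.1 ∪ pes (G n) p.1.2.1 p.1.2.2.1)
      (fun q => pes (G n) q.2.1.2.1 q.2.1.2.2.1)
  let Dd : K1 G L n ⊕ (Σ k : Fin n, K2 G L n k) → Finset (Sym2 (G n).V × Fin d) :=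
    Sum.elim (fun p => (J p).image fun t => (G n).pe p.1.1 p.1.2.2.1 t.1 t.2)
      (fun q => pes (G n) q.2.1.2.1 q.2.1.2.2.1)
  let Ev : K1 G L n ⊕ (Σ k : Fin n, K2 G L n k) → (Sym2 (G n).V × Fin d → Fin m) → Prop :=
    Sum.elim
      (fun p l => ∀ (t : ℕ) (ht : t < p.1.2.2.1.length),
        l ((G n).pe p.1.1 p.1.2.2.1 t ht) = l ((G n).pe p.1.2.1 p.1.2.2.1 t ht))
      (fun q l => ∀ (t : ℕ) (ht : t < q.2.1.2.2.1.length),
        prev q.1 q.1.2 ((G q.1).pe q.2.1.1 q.2.1.2.2.1 t ht) =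
          l ((G n).pe q.2.1.2.1 q.2.1.2.2.1 t ht))
  have hdep : ∀ k (l l' : Sym2 (G n).V × Fin d → Fin m), (∀ x, x ∈ supp k → l x = l' x) →
      Ev k l → Ev k l' := by
    rintro (p | q) l l' hll hE t ht
    · have h1 := hll _ (Finset.mem_union_left _ (mem_pes.2 ⟨t, ht, rfl⟩))
      have h2 := hll _ (Finset.mem_union_right _ (mem_pes.2 ⟨t, ht, rfl⟩))
      rw [← h1, ← h2]
      exact hE t ht
    · have h1 := hll _ (mem_pes.2 ⟨t, ht, rfl⟩)
      rw [← h1]
      exact hE t ht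
  have hne : ∀ k, (supp k).Nonempty := by
    rintro (p | q)
    · have h1 : p.1.2.2.1.length = L n := p.1.2.2.2
      have h2 := hLb n
      exact ⟨_, Finset.mem_union_left _ (mem_pes.2 ⟨0, by omega, rfl⟩)⟩
    · have h1 : q.2.1.2.2.1.length = L q.1 := q.2.1.2.2.2
      have h2 := hLb q.1
      exact ⟨_, mem_pes.2 ⟨0, by omega, rfl⟩⟩
  have hDs : ∀ k, Dd k ⊆ supp k := by
    rintro (p | q)
    · intro e he
      obtain ⟨t, -, rfl⟩ := Finset.mem_image.1 he
      exact Finset.mem_union_left _ (mem_pes.2 ⟨t.1, t.2, rfl⟩)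
    · exact fun e he => he
  have hdet : ∀ k (l l' : Sym2 (G n).V × Fin d → Fin m), Ev k l → Ev k l' →
      (∀ x, x ∉ Dd k → l x = l' x) → l = l' := by
    rintro (p | q) l l' hE hE' hll
    · funext e
      by_cases he : e ∈ Dd (Sum.inl p)
      · obtain ⟨t, ht, rfl⟩ := Finset.mem_image.1 he
        rw [hE t.1 t.2, hE' t.1 t.2]
        refine hll _ fun hmem => ?_
        obtain ⟨t', ht', h'⟩ := Finset.mem_image.1 hmem
        exact hJ2 p t' ht' t ht h'
      · exact hll e he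
    · funext e
      by_cases he : e ∈ Dd (Sum.inr q)
      · obtain ⟨t, ht, rfl⟩ := mem_pes.1 he
        rw [← hE t ht, ← hE' t ht]
      · exact hll e he
  have hmr : (Fintype.card (Fin m) : ℝ) = 2 * (Q : ℝ) ^ 3 := by
    rw [Fintype.card_fin, hm]
    push_cast
    ring
  have hm2 : 2 ≤ Fintype.card (Fin m) := by
    rw [Fintype.card_fin, hm]
    have : 1 ≤ Q ^ 3 := Nat.one_le_pow _ _ hQ1
    omega
  have hq : (2 : ℝ) / (Fintype.card (Fin m) : ℝ) = 1 / (Q : ℝ) ^ 3 := by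
    rw [hmr]
    field_simp
  have hsum : ∀ e, ∑ k ∈ Finset.univ.filter (fun k => e ∈ supp k),
      (2 / (Fintype.card (Fin m) : ℝ)) ^ ((Dd k).card - 1) ≤ 1 / 2 := by
    intro e
    rw [hq, Finset.sum_filter, Fintype.sum_sum_type, Fintype.sum_sigma]
    refine le_trans (add_le_add ?_ (Finset.sum_le_sum ?_)) (numeric (D * d) Q ha hQ L hL h0 n)
    · have h1 : ∀ p : K1 G L n, (if e ∈ supp (Sum.inl p) then
          (1 / (Q : ℝ) ^ 3) ^ ((Dd (Sum.inl p)).card - 1) else 0) ≤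
          if e ∈ pes (G n) p.1.1 p.1.2.2.1 ∪ pes (G n) p.1.2.1 p.1.2.2.1 then
            (Q : ℝ) ^ 4 / Q ^ (L n) else 0 := by
        intro p
        have hl : p.1.2.2.1.length = L n := p.1.2.2.2
        have hcard : (Dd (Sum.inl p)).card = (J p).card := by
          refine Finset.card_image_of_injective _ fun j k e' => ?_
          exact Fin.ext ((G n).pe_inj (hg n) p.2.2.1 p.2.2.2.1 (by
            have := hLb n
            omega) j.2 k.2 e')
        split_ifs with h2 h3 h3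
        · rw [hcard, one_div_pow, ← pow_mul, div_le_div_iff₀ (by positivity) (by positivity),
            one_mul, ← pow_add]
          refine pow_le_pow_right₀ hQr ?_
          have h4 := hJ1 p
          have h5 := hLb n
          omega
        · exact absurd h2 h3
        · exact absurd h3 h2
        · exact le_refl _
      refine (Finset.sum_le_sum fun p _ => h1 p).trans ?_
      rw [← Finset.sum_filter, Finset.sum_const, nsmul_eq_mul]
      refine mul_le_mul_of_nonneg_right ?_ (by positivity)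
      have h2 := card_K1 (G := G) (L := L) (n := n) e
      have h3 : 4 * L n * d ^ (L n) * Fintype.card (G n).V ≤ 8 * L n * (D * d) ^ (L n) := by
        calc 4 * L n * d ^ (L n) * Fintype.card (G n).V
            ≤ 4 * L n * d ^ (L n) * (2 * D ^ (L n)) := Nat.mul_le_mul_left _ (hc n)
          _ = 8 * L n * (D * d) ^ (L n) := by rw [mul_pow]; ring
      exact_mod_cast h2.trans h3
    · intro k _
      have h1 : ∀ p : K2 G L n k, (if e ∈ supp (Sum.inr ⟨k, p⟩) then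
          (1 / (Q : ℝ) ^ 3) ^ ((Dd (Sum.inr ⟨k, p⟩)).card - 1) else 0) ≤
          if e ∈ pes (G n) p.1.2.1 p.1.2.2.1 then
            (Q : ℝ) ^ 3 / ((Q : ℝ) ^ 3) ^ (L k) else 0 := by
        intro p
        have hl : p.1.2.2.1.length = L k := p.1.2.2.2
        have hln : L k ≤ L n := hL.monotone k.2.le
        have hcard : (Dd (Sum.inr ⟨k, p⟩)).card = L k :=
          (card_pes (hg n) p.2.1 p.2.2.2 (by
            have := hLb k
            omega)).trans hl
        split_ifs with h2 h3 h3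
        · rw [hcard, one_div_pow, div_le_div_iff₀ (by positivity) (by positivity), one_mul,
            ← pow_succ']
          refine pow_le_pow_right₀ (one_le_pow₀ hQr) ?_
          have h5 := hLb k
          omega
        · exact absurd h2 h3
        · exact absurd h3 h2
        · exact le_refl _
      refine (Finset.sum_le_sum fun p _ => h1 p).trans ?_
      rw [← Finset.sum_filter, Finset.sum_const, nsmul_eq_mul]
      refine mul_le_mul_of_nonneg_right ?_ (by positivity)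
      have h2 := card_K2 (G := G) (L := L) (n := n) k e
      have h3 : 2 * L k * d ^ (L k) * Fintype.card (G k).V ≤ 4 * L k * (D * d) ^ (L k) := by
        calc 2 * L k * d ^ (L k) * Fintype.card (G k).V
            ≤ 2 * L k * d ^ (L k) * (2 * D ^ (L k)) := Nat.mul_le_mul_left _ (hc k)
          _ = 4 * L k * (D * d) ^ (L k) := by rw [mul_pow]; ring
      exact_mod_cast h2.trans h3
  obtain ⟨new, hnew⟩ := exists_labelling (supp := supp) (D := Dd) (Ev := Ev) hdep hne hDs hdet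
    hm2 hsum
  refine ⟨new, ?_, ?_⟩
  · intro x x' w hx hw hl h h'
    have h1 := hnew (Sum.inl ⟨(x, x', ⟨w, hl⟩), hx, hw, h, h'⟩)
    by_contra hcon
    push Not at hcon
    exact h1 fun t ht => hcon t ht
  · intro k hk x x' w hw hl h h'
    have h1 := hnew (Sum.inr ⟨⟨k, hk⟩, ⟨(x, x', ⟨w, hl⟩), hw, h, h'⟩⟩)
    by_contra hcon
    push Not at hcon
    exact h1 fun t ht => hcon t ht

theorem partLab : PartLab := by
  intro d D hd hD
  refine ⟨2 * (4 * (D * d)) ^ 3, 32 * (4 * (D * d)) ^ 4, fun G L hL h0 hg hc => ?_⟩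
  obtain ⟨f, hf⟩ := exists_strong
    (α := fun n => Sym2 (G n).V × Fin d → Fin (2 * (4 * (D * d)) ^ 3)) _
    (fun n prev => step hd hD G L hL hg hc _ _ rfl rfl h0 n prev)
  exact ⟨{
    lab := f
    sc1 := fun n => (hf n).1
    sc2 := fun k n hk => (hf n).2 k hk }⟩

end P089.BC
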